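import Vale.Agent.P281.H740.TL.Retr
import Vale.Agent.P281.H713.TsumHol
import Vale.Agent.P281.H713.TZ.S
import Vale.Agent.P281.H64.Defs

/-! P281, project T-W, block W2-B (helper737): restriction of pluricanonical sections to the fibres of a
submersion, and the rank of the restricted map. -/

open Set Filter Vale.Agent.P281 Vale.Agent.P281.H713
open Vale.Agent.P281.H64 (Cm)
open scoped Topology ContDiff Manifold

set_option linter.all false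

noncomputable section

namespace Vale.Agent.P281.H737.TW

section alg

/-- the determinant of a shear -/
theorem det_shear {V W : Type} [AddCommGroup V] [Module ℂ V] [AddCommGroup W] [Module ℂ W]
    [FiniteDimensional ℂ V] [FiniteDimensional ℂ W] (S : V →ₗ[ℂ] W) :
    LinearMap.det ((LinearMap.fst ℂ V W).prod
      (LinearMap.snd ℂ V W + S.comp (LinearMap.fst ℂ V W))) = 1 := by
  set M : V × W →ₗ[ℂ] V × W := (LinearMap.fst ℂ V W).prod
      (LinearMap.snd ℂ V W + S.comp (LinearMap.fst ℂ V W)) with hM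
  set M' : V × W →ₗ[ℂ] V × W := (LinearMap.fst ℂ V W).prod
      (LinearMap.snd ℂ V W - S.comp (LinearMap.fst ℂ V W)) with hM'
  have h1 : M.comp M' = LinearMap.id := by
    apply LinearMap.ext
    rintro ⟨v, w⟩
    simp [hM, hM']
  have h2 : LinearMap.det M ≠ 0 := by
    intro h
    have h3 := congrArg LinearMap.det h1
    rw [LinearMap.det_comp, h, zero_mul, LinearMap.det_id] at h3
    exact zero_ne_one h3
  let C : (V × W) ≃ₗ[ℂ] (V × W) := (LinearEquiv.refl ℂ V).prodCongr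
    (LinearEquiv.smulOfNeZero ℂ W (2 : ℂ) two_ne_zero)
  have h4 : (C : V × W →ₗ[ℂ] V × W) ∘ₗ M ∘ₗ (C.symm : V × W →ₗ[ℂ] V × W) = M.comp M := by
    rw [← LinearMap.comp_assoc, ← LinearEquiv.eq_comp_toLinearMap_symm]
    apply LinearMap.ext
    rintro ⟨v, w⟩
    simp [hM, C, two_smul, add_assoc]
  have h5 := LinearMap.det_conj M C
  rw [h4, LinearMap.det_comp] at h5
  exact mul_left_cancel₀ h2 (by rw [h5, mul_one])

variable {c d : ℕ}

/-- coordinates -/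
def kp (c d : ℕ) : Cm (c + d) ≃L[ℂ] Cm c × Cm d := ContinuousLinearEquiv.ofFinrankEq (by simp)

/-- the determinant of `[R | T]` -/
def Jd (R : Cm c →L[ℂ] Cm (c + d)) (T : Cm d →L[ℂ] Cm (c + d)) : ℂ :=
  ((R.coprod T).comp (kp c d : Cm (c + d) →L[ℂ] Cm c × Cm d)).det

theorem det_kp (M : (Cm c × Cm d) →L[ℂ] (Cm c × Cm d)) :
    ContinuousLinearMap.det (((kp c d).symm : Cm c × Cm d →L[ℂ] Cm (c + d)).comp
      (M.comp (kp c d : Cm (c + d) →L[ℂ] Cm c × Cm d))) =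
      LinearMap.det (M : (Cm c × Cm d) →ₗ[ℂ] (Cm c × Cm d)) :=
  LinearMap.det_conj (M : (Cm c × Cm d) →ₗ[ℂ] (Cm c × Cm d)) (kp c d).symm.toLinearEquiv

theorem Jd_left (A : Cm (c + d) →L[ℂ] Cm (c + d)) (R : Cm c →L[ℂ] Cm (c + d))
    (T : Cm d →L[ℂ] Cm (c + d)) : Jd (A.comp R) (A.comp T) = A.det * Jd R T := by
  unfold Jd
  have h1 : ((A.comp R).coprod (A.comp T)).comp (kp c d : Cm (c + d) →L[ℂ] Cm c × Cm d) =
      A.comp ((R.coprod T).comp (kp c d : Cm (c + d) →L[ℂ] Cm c × Cm d)) := by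
    ext v
    simp
  rw [h1]
  exact LinearMap.det_comp _ _

theorem Jd_right (R : Cm c →L[ℂ] Cm (c + d)) (T : Cm d →L[ℂ] Cm (c + d))
    (B : Cm d →L[ℂ] Cm d) : Jd R (T.comp B) = Jd R T * B.det := by
  unfold Jd
  have h1 : (R.coprod (T.comp B)).comp (kp c d : Cm (c + d) →L[ℂ] Cm c × Cm d) =
      ((R.coprod T).comp (kp c d : Cm (c + d) →L[ℂ] Cm c × Cm d)).comp
        (((kp c d).symm : Cm c × Cm d →L[ℂ] Cm (c + d)).comp
          (((ContinuousLinearMap.id ℂ (Cm c)).prodMap B).comp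
            (kp c d : Cm (c + d) →L[ℂ] Cm c × Cm d))) := by
    ext v
    simp
  rw [h1]
  have h2 := LinearMap.det_comp
    (((R.coprod T).comp (kp c d : Cm (c + d) →L[ℂ] Cm c × Cm d)) : Cm (c + d) →ₗ[ℂ] Cm (c + d))
    (((((kp c d).symm : Cm c × Cm d →L[ℂ] Cm (c + d)).comp
          (((ContinuousLinearMap.id ℂ (Cm c)).prodMap B).comp
            (kp c d : Cm (c + d) →L[ℂ] Cm c × Cm d)))) : Cm (c + d) →ₗ[ℂ] Cm (c + d))
  refine Eq.trans h2 ?_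
  congr 1
  refine Eq.trans (det_kp ((ContinuousLinearMap.id ℂ (Cm c)).prodMap B)) ?_
  have h3 := LinearMap.det_prodMap (R := ℂ) (LinearMap.id : Cm c →ₗ[ℂ] Cm c)
    (B : Cm d →ₗ[ℂ] Cm d)
  rw [LinearMap.det_id, one_mul] at h3
  exact h3

/-- `[R | T]` has determinant `J * det (P R)`, if `P T = 0` -/
theorem exists_jac {P : Cm (c + d) →L[ℂ] Cm c} {T : Cm d →L[ℂ] Cm (c + d)}
    (hP : Function.Surjective P) (hT : Function.Injective T) (hPT : ∀ ξ, P (T ξ) = 0) :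
    ∃ J : ℂ, J ≠ 0 ∧ ∀ R : Cm c →L[ℂ] Cm (c + d), Jd R T = J * (P.comp R).det := by
  obtain ⟨L, G, hL, hG⟩ := H740.exists_lin (by simp) hP hT hPT
  set δ : ℂ := ContinuousLinearMap.det
    (((kp c d).symm : Cm c × Cm d →L[ℂ] Cm (c + d)).comp (G : Cm (c + d) →L[ℂ] Cm c × Cm d)) with hδ
  have hδ0 : δ ≠ 0 := by
    intro h
    have h1 : (((kp c d).symm : Cm c × Cm d →L[ℂ] Cm (c + d)).comp
        (G : Cm (c + d) →L[ℂ] Cm c × Cm d)).comp
        ((G.symm : Cm c × Cm d →L[ℂ] Cm (c + d)).comp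
          (kp c d : Cm (c + d) →L[ℂ] Cm c × Cm d)) = ContinuousLinearMap.id ℂ (Cm (c + d)) := by
      ext v
      simp
    have h2 := LinearMap.det_comp
      (((kp c d).symm : Cm c × Cm d →L[ℂ] Cm (c + d)).comp
        (G : Cm (c + d) →L[ℂ] Cm c × Cm d) : Cm (c + d) →ₗ[ℂ] Cm (c + d))
      ((G.symm : Cm c × Cm d →L[ℂ] Cm (c + d)).comp
          (kp c d : Cm (c + d) →L[ℂ] Cm c × Cm d) : Cm (c + d) →ₗ[ℂ] Cm (c + d))
    have h3 : LinearMap.det (((((kp c d).symm : Cm c × Cm d →L[ℂ] Cm (c + d)).comp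
        (G : Cm (c + d) →L[ℂ] Cm c × Cm d)).comp
        ((G.symm : Cm c × Cm d →L[ℂ] Cm (c + d)).comp
          (kp c d : Cm (c + d) →L[ℂ] Cm c × Cm d))) : Cm (c + d) →ₗ[ℂ] Cm (c + d)) = 1 := by
      rw [h1]
      exact LinearMap.det_id
    have h4 : (1 : ℂ) = δ * _ := h3.symm.trans h2
    rw [h, zero_mul] at h4
    exact one_ne_zero h4
  refine ⟨δ⁻¹, inv_ne_zero hδ0, fun R => ?_⟩
  have key : δ * Jd R T = (P.comp R).det := by
    have h1 : (((kp c d).symm : Cm c × Cm d →L[ℂ] Cm (c + d)).comp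
        (G : Cm (c + d) →L[ℂ] Cm c × Cm d)).comp
        ((R.coprod T).comp (kp c d : Cm (c + d) →L[ℂ] Cm c × Cm d)) =
        ((kp c d).symm : Cm c × Cm d →L[ℂ] Cm (c + d)).comp
          (((G : Cm (c + d) →L[ℂ] Cm c × Cm d).comp (R.coprod T)).comp
            (kp c d : Cm (c + d) →L[ℂ] Cm c × Cm d)) := by
      ext v
      simp
    have h2 := LinearMap.det_comp
      (((kp c d).symm : Cm c × Cm d →L[ℂ] Cm (c + d)).comp
        (G : Cm (c + d) →L[ℂ] Cm c × Cm d) : Cm (c + d) →ₗ[ℂ] Cm (c + d))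
      ((R.coprod T).comp (kp c d : Cm (c + d) →L[ℂ] Cm c × Cm d) : Cm (c + d) →ₗ[ℂ] Cm (c + d))
    have h3 : LinearMap.det ((((((kp c d).symm : Cm c × Cm d →L[ℂ] Cm (c + d)).comp
        (G : Cm (c + d) →L[ℂ] Cm c × Cm d)).comp
        ((R.coprod T).comp (kp c d : Cm (c + d) →L[ℂ] Cm c × Cm d)))) :
          Cm (c + d) →ₗ[ℂ] Cm (c + d)) = δ * Jd R T := h2
    rw [← h3, h1]
    refine Eq.trans (det_kp ((G : Cm (c + d) →L[ℂ] Cm c × Cm d).comp (R.coprod T))) ?_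
    have h4 : (((G : Cm (c + d) →L[ℂ] Cm c × Cm d).comp (R.coprod T) :
        Cm c × Cm d →L[ℂ] Cm c × Cm d) : Cm c × Cm d →ₗ[ℂ] Cm c × Cm d) =
        (LinearMap.prodMap ((P.comp R : Cm c →L[ℂ] Cm c) : Cm c →ₗ[ℂ] Cm c)
          (LinearMap.id : Cm d →ₗ[ℂ] Cm d)).comp
          ((LinearMap.fst ℂ (Cm c) (Cm d)).prod (LinearMap.snd ℂ (Cm c) (Cm d) +
            ((L.comp R : Cm c →L[ℂ] Cm d) : Cm c →ₗ[ℂ] Cm d).comp
              (LinearMap.fst ℂ (Cm c) (Cm d)))) := by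
      rw [hG]
      apply LinearMap.ext
      rintro ⟨v, w⟩
      apply Prod.ext
      · show P (R v + T w) = P (R v)
        rw [map_add, hPT, add_zero]
      · show L (R v + T w) = w + L (R v)
        rw [map_add, hL, add_comm]
    rw [h4, LinearMap.det_comp, det_shear, mul_one, LinearMap.det_prodMap, LinearMap.det_id,
      mul_one]
  rw [← key, ← mul_assoc, inv_mul_cancel₀ hδ0, one_mul]

/-- Some coordinates are coordinates of the image. -/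
theorem exists_sel {V : Type} [AddCommGroup V] [Module ℂ V] {N r : ℕ} (M : V →ₗ[ℂ] (Fin N → ℂ))
    (hr : r ≤ Module.finrank ℂ (LinearMap.range M)) :
    ∃ e : Fin r → Fin N, Function.Surjective fun (v : V) (b : Fin r) => M v (e b) := by
  classical
  set W := LinearMap.range M with hW
  set v : Fin N → Module.Dual ℂ W := fun l => (LinearMap.proj l : (Fin N → ℂ) →ₗ[ℂ] ℂ).comp
    W.subtype with hv
  obtain ⟨κ, b, hb, hspan, hli⟩ := exists_linearIndependent' (K := ℂ) v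
  have : Finite κ := Finite.of_injective b hb
  have : Fintype κ := Fintype.ofFinite κ
  have key : ∀ w : W, (∀ k, (w : Fin N → ℂ) (b k) = 0) → w = 0 := by
    intro w hw
    have h1 : ∀ f ∈ Submodule.span ℂ (Set.range (v ∘ b)), f w = 0 := by
      intro f hf
      induction hf using Submodule.span_induction with
      | mem x hx =>
        obtain ⟨k, rfl⟩ := hx
        exact hw k
      | zero => rfl
      | add x y _ _ hx hy => rw [LinearMap.add_apply, hx, hy, add_zero]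
      | smul c x _ hx => rw [LinearMap.smul_apply, hx, smul_zero]
    ext l
    have h2 : v l ∈ Submodule.span ℂ (Set.range (v ∘ b)) := by
      rw [hspan]
      exact Submodule.subset_span ⟨l, rfl⟩
    exact h1 _ h2
  have hinj : Function.Injective (LinearMap.pi fun k => v (b k) : W →ₗ[ℂ] (κ → ℂ)) := by
    rw [injective_iff_map_eq_zero]
    intro w hw
    exact key w fun k => congrFun hw k
  have hcard : Fintype.card κ = Module.finrank ℂ W := by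
    apply le_antisymm
    · rw [← Subspace.dual_finrank_eq (K := ℂ) (V := W)]
      exact hli.fintype_card_le_finrank
    · have h2 := LinearMap.finrank_le_finrank_of_injective hinj
      rwa [Module.finrank_fintype_fun_eq_card] at h2
  have hsurj : Function.Surjective (LinearMap.pi fun k => v (b k) : W →ₗ[ℂ] (κ → ℂ)) := by
    refine (LinearMap.injective_iff_surjective_of_finrank_eq_finrank ?_).1 hinj
    rw [Module.finrank_fintype_fun_eq_card, hcard]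
  have hrk : r ≤ Fintype.card κ := by rw [hcard]; exact hr
  let e₀ : Fin r → κ := fun j => (Fintype.equivFin κ).symm (Fin.castLE hrk j)
  have he₀ : Function.Injective e₀ := fun x y hxy =>
    Fin.castLE_injective hrk ((Fintype.equivFin κ).symm.injective hxy)
  refine ⟨fun j => b (e₀ j), fun u => ?_⟩
  obtain ⟨w, hw⟩ := hsurj (Function.extend e₀ u 0)
  obtain ⟨x, hx⟩ := w.2
  refine ⟨x, ?_⟩
  funext j
  have h1 := congrFun hw (e₀ j)
  rw [he₀.extend_apply] at h1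
  rw [← h1]
  show M x (b (e₀ j)) = (w : Fin N → ℂ) (b (e₀ j))
  rw [hx]

theorem rank_comp {N : ℕ} {Λ : Cm (c + d) →ₗ[ℂ] (Fin N → ℂ)} {T : Cm d →ₗ[ℂ] Cm (c + d)}
    (hΛ : Function.Surjective Λ) (hT : Function.Injective T) :
    N - c ≤ Module.finrank ℂ (LinearMap.range (Λ.comp T)) := by
  have h1 := LinearMap.finrank_range_add_finrank_ker Λ
  have h2 := LinearMap.finrank_range_add_finrank_ker (Λ.comp T)
  have h3 : Module.finrank ℂ (LinearMap.ker (Λ.comp T)) ≤ Module.finrank ℂ (LinearMap.ker Λ) := by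
    rw [LinearEquiv.finrank_eq (Submodule.equivMapOfInjective T hT (LinearMap.ker (Λ.comp T)))]
    apply Submodule.finrank_mono
    rintro _ ⟨v, hv, rfl⟩
    exact hv
  rw [LinearMap.range_eq_top.2 hΛ, finrank_top] at h1
  simp only [Module.finrank_fintype_fun_eq_card, Fintype.card_fin] at h1 h2
  omega

end alg

section loc
variable {c d : ℕ} {F G : Type} [TopologicalSpace F] [ChartedSpace (Cm (c + d)) F]
  [IsManifold 𝓘(ℂ, Cm (c + d)) ω F] [TopologicalSpace G] [ChartedSpace (Cm d) G]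
  [IsManifold 𝓘(ℂ, Cm d) ω G] {ι : G → F} {W : F → Cm c}

theorem contDiff_Jd (R : Cm c →L[ℂ] Cm (c + d)) :
    ContDiff ℂ ω (fun T : Cm d →L[ℂ] Cm (c + d) => Jd R T) := by
  have h1 : (fun T : Cm d →L[ℂ] Cm (c + d) => Jd R T) = fun T =>
      ((R.comp (ContinuousLinearMap.fst ℂ (Cm c) (Cm d)) +
        T.comp (ContinuousLinearMap.snd ℂ (Cm c) (Cm d))).comp
          (kp c d : Cm (c + d) →L[ℂ] Cm c × Cm d)).det := by
    funext T
    unfold Jd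
    congr 2
  rw [h1]
  refine contDiff_det'.comp ?_
  exact (contDiff_const.add (contDiff_id.clm_comp contDiff_const)).clm_comp contDiff_const

/-- the comparison of the Jacobians is holomorphic -/
theorem exists_unit (hι : ContMDiff 𝓘(ℂ, Cm d) 𝓘(ℂ, Cm (c + d)) ω ι)
    (hW : ∀ s, ContMDiffAt 𝓘(ℂ, Cm (c + d)) 𝓘(ℂ, Cm c) ω W (ι s))
    (hWs : ∀ s, Function.Surjective (mfderiv 𝓘(ℂ, Cm (c + d)) 𝓘(ℂ, Cm c) W (ι s)))
    {Jac : G → ℂ} (hJ : ∀ s (R : Cm c →L[ℂ] Cm (c + d)),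
      Jd R (mfderiv 𝓘(ℂ, Cm d) 𝓘(ℂ, Cm (c + d)) ι s) =
        Jac s * ContinuousLinearMap.det
          ((mfderiv 𝓘(ℂ, Cm (c + d)) 𝓘(ℂ, Cm c) W (ι s) : Cm (c + d) →L[ℂ] Cm c).comp R))
    (s₁ : G) : ∃ u : G → ℂ, J.HolAt (Cm d) u s₁ ∧ ∀ᶠ s in 𝓝 s₁,
      ContinuousLinearMap.det (mfderiv 𝓘(ℂ, Cm (c + d)) 𝓘(ℂ, Cm (c + d))
        (chartAt (Cm (c + d)) (ι s₁)) (ι s) : Cm (c + d) →L[ℂ] Cm (c + d)) * Jac s =
      u s * ContinuousLinearMap.det (mfderiv 𝓘(ℂ, Cm d) 𝓘(ℂ, Cm d) (chartAt (Cm d) s₁) s :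
        Cm d →L[ℂ] Cm d) := by
  set φ := chartAt (Cm (c + d)) (ι s₁) with hφ
  set ψ := chartAt (Cm d) s₁ with hψ
  have hφs : ι s₁ ∈ φ.source := mem_chart_source _ _
  have hψs : s₁ ∈ ψ.source := mem_chart_source _ _
  set ι' : Cm d → Cm (c + d) := fun v => φ (ι (ψ.symm v)) with hι'
  set W' : Cm (c + d) → Cm c := fun u => W (φ.symm u) with hW'
  have hι'c : ContDiffAt ℂ ω ι' (ψ s₁) := H740.contDiffAt_loc (hι s₁)
  have hW'c : ContDiffAt ℂ ω W' (φ (ι s₁)) := by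
    have h1 := H740.contDiffAt_loc (hW s₁)
    exact h1
  have hP₀ : Function.Surjective (fderiv ℂ W' (φ (ι s₁))) := by
    have h1 := H740.mfderiv_loc ((hW s₁).mdifferentiableAt (by simp))
    have h2 := hWs s₁
    rw [h1] at h2
    exact h2
  obtain ⟨r₀, hr₀⟩ := LinearMap.exists_rightInverse_of_surjective
    (fderiv ℂ W' (φ (ι s₁)) : Cm (c + d) →ₗ[ℂ] Cm c) (LinearMap.range_eq_top.2 hP₀)
  set R₀ : Cm c →L[ℂ] Cm (c + d) := LinearMap.toContinuousLinearMap r₀ with hR₀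
  have hR₀' : (fderiv ℂ W' (φ (ι s₁))).comp R₀ = ContinuousLinearMap.id ℂ (Cm c) := by
    ext v
    exact congrFun (LinearMap.congr_fun hr₀ v) _
  -- numerator and denominator
  set num : Cm d → ℂ := fun v => Jd R₀ (fderiv ℂ ι' v) with hnum
  set den : Cm (c + d) → ℂ := fun w => ((fderiv ℂ W' w).comp R₀).det with hden
  have hnumc : ContDiffAt ℂ ω num (ψ s₁) :=
    (contDiff_Jd R₀).contDiffAt.comp (ψ s₁) (hι'c.fderiv_right (m := ω) (by simp))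
  have hdenc : ContDiffAt ℂ ω den (φ (ι s₁)) :=
    contDiff_det'.contDiffAt.comp (φ (ι s₁))
      ((hW'c.fderiv_right (m := ω) (by simp)).clm_comp contDiffAt_const)
  have hden0 : den (φ (ι s₁)) ≠ 0 := by
    show ((fderiv ℂ W' (φ (ι s₁))).comp R₀).det ≠ 0
    rw [hR₀']
    have : (ContinuousLinearMap.id ℂ (Cm c)).det = 1 := LinearMap.det_id
    rw [this]
    exact one_ne_zero
  have hψm : ContMDiffAt 𝓘(ℂ, Cm d) 𝓘(ℂ, Cm d) ω ψ s₁ :=
    contMDiffAt_of_mem_maximalAtlas (IsManifold.chart_mem_maximalAtlas _) hψs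
  have hφm : ContMDiffAt 𝓘(ℂ, Cm (c + d)) 𝓘(ℂ, Cm (c + d)) ω φ (ι s₁) :=
    contMDiffAt_of_mem_maximalAtlas (IsManifold.chart_mem_maximalAtlas _) hφs
  have hnumm : ContMDiffAt 𝓘(ℂ, Cm d) 𝓘(ℂ, ℂ) ω (fun s => num (ψ s)) s₁ :=
    ContMDiffAt.comp (g := num) (f := ψ) s₁ hnumc.contMDiffAt hψm
  have hφι : ContMDiffAt 𝓘(ℂ, Cm d) 𝓘(ℂ, Cm (c + d)) ω (fun s => φ (ι s)) s₁ :=
    ContMDiffAt.comp (g := φ) (f := ι) s₁ hφm (hι s₁)
  have hdenm : ContMDiffAt 𝓘(ℂ, Cm d) 𝓘(ℂ, ℂ) ω (fun s => den (φ (ι s))) s₁ :=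
    ContMDiffAt.comp (g := den) (f := fun s => φ (ι s)) s₁ hdenc.contMDiffAt hφι
  refine ⟨fun s => num (ψ s) / den (φ (ι s)), hnumm.div₀ hdenm hden0, ?_⟩
  have e1 : ∀ᶠ s in 𝓝 s₁, ι s ∈ φ.source :=
    hι.continuous.continuousAt.eventually (φ.open_source.mem_nhds hφs)
  have e2 : ∀ᶠ s in 𝓝 s₁, s ∈ ψ.source := ψ.open_source.mem_nhds hψs
  have e3 : ∀ᶠ s in 𝓝 s₁, DifferentiableAt ℂ W' (φ (ι s)) := by
    refine (hφι.continuousAt).eventually (p := fun w => DifferentiableAt ℂ W' w) ?_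
    exact (hW'c.eventually (by simp)).mono fun w hw => hw.differentiableAt (by simp)
  have e4 : ∀ᶠ s in 𝓝 s₁, DifferentiableAt ℂ ι' (ψ s) := by
    refine (hψm.continuousAt).eventually (p := fun w => DifferentiableAt ℂ ι' w) ?_
    exact (hι'c.eventually (by simp)).mono fun w hw => hw.differentiableAt (by simp)
  have e5 : ∀ᶠ s in 𝓝 s₁, den (φ (ι s)) ≠ 0 := hdenm.continuousAt.eventually_ne hden0
  filter_upwards [e1, e2, e3, e4, e5] with s g1 g2 g3 g4 g5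
  set A : Cm (c + d) →L[ℂ] Cm (c + d) :=
    mfderiv 𝓘(ℂ, Cm (c + d)) 𝓘(ℂ, Cm (c + d)) φ (ι s) with hA
  set B : Cm d →L[ℂ] Cm d := mfderiv 𝓘(ℂ, Cm d) 𝓘(ℂ, Cm d) ψ s with hB
  set P : Cm (c + d) →L[ℂ] Cm c := mfderiv 𝓘(ℂ, Cm (c + d)) 𝓘(ℂ, Cm c) W (ι s) with hP
  set T : Cm d →L[ℂ] Cm (c + d) := mfderiv 𝓘(ℂ, Cm d) 𝓘(ℂ, Cm (c + d)) ι s with hT
  have hφd : MDifferentiableAt 𝓘(ℂ, Cm (c + d)) 𝓘(ℂ, Cm (c + d)) φ (ι s) :=
    (contMDiffAt_of_mem_maximalAtlas (n := ω) (IsManifold.chart_mem_maximalAtlas _)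
      g1).mdifferentiableAt (by simp)
  have hψd : MDifferentiableAt 𝓘(ℂ, Cm d) 𝓘(ℂ, Cm d) ψ s :=
    (contMDiffAt_of_mem_maximalAtlas (n := ω) (IsManifold.chart_mem_maximalAtlas _)
      g2).mdifferentiableAt (by simp)
  have f1 : P = (fderiv ℂ W' (φ (ι s))).comp A := by
    have h1 : W =ᶠ[𝓝 (ι s)] W' ∘ φ := by
      filter_upwards [φ.open_source.mem_nhds g1] with w hw
      show W w = W (φ.symm (φ w))
      rw [φ.left_inv hw]
    rw [hP, h1.mfderiv_eq, mfderiv_comp (I' := 𝓘(ℂ, Cm (c + d))) (ι s)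
      g3.mdifferentiableAt hφd, mfderiv_eq_fderiv]
    rfl
  have f2 : A.comp T = (fderiv ℂ ι' (ψ s)).comp B := by
    have h1 : (φ ∘ ι) =ᶠ[𝓝 s] (ι' ∘ ψ) := by
      filter_upwards [ψ.open_source.mem_nhds g2] with w hw
      show φ (ι w) = φ (ι (ψ.symm (ψ w)))
      rw [ψ.left_inv hw]
    have h2 : mfderiv 𝓘(ℂ, Cm d) 𝓘(ℂ, Cm (c + d)) (φ ∘ ι) s = A.comp T :=
      mfderiv_comp (I' := 𝓘(ℂ, Cm (c + d))) s hφd ((hι s).mdifferentiableAt (by simp))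
    have h3 : mfderiv 𝓘(ℂ, Cm d) 𝓘(ℂ, Cm (c + d)) (ι' ∘ ψ) s =
        (fderiv ℂ ι' (ψ s)).comp B := by
      rw [mfderiv_comp (I' := 𝓘(ℂ, Cm d)) s g4.mdifferentiableAt hψd, mfderiv_eq_fderiv]
      rfl
    rw [← h2, ← h3, h1.mfderiv_eq]
  have hAs : Function.Surjective A :=
    (mdifferentiable_chart (I := 𝓘(ℂ, Cm (c + d))) (ι s₁)).mfderiv_surjective g1
  obtain ⟨a', ha'⟩ := LinearMap.exists_rightInverse_of_surjective
    (A : Cm (c + d) →ₗ[ℂ] Cm (c + d)) (LinearMap.range_eq_top.2 hAs)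
  set A' : Cm (c + d) →L[ℂ] Cm (c + d) := LinearMap.toContinuousLinearMap a' with hA'
  have hAA' : ∀ v, A (A' v) = v := fun v => LinearMap.congr_fun ha' v
  have k1 := hJ s (A'.comp R₀)
  have k2 : P.comp (A'.comp R₀) = (fderiv ℂ W' (φ (ι s))).comp R₀ := by
    ext v l
    rw [f1]
    simp [hAA']
  have k3 := Jd_left A (A'.comp R₀) T
  have k4 : A.comp (A'.comp R₀) = R₀ := by
    ext v l
    simp [hAA']
  rw [k4, f2, Jd_right] at k3
  have k5 : Jd (A'.comp R₀) T = Jac s * den (φ (ι s)) := by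
    have := k1
    rw [← hT] at this
    rw [this]
    show Jac s * (P.comp (A'.comp R₀)).det = _
    rw [k2]
  rw [k5] at k3
  show A.det * Jac s = num (ψ s) / den (φ (ι s)) * B.det
  rw [div_mul_eq_mul_div, eq_div_iff g5]
  rw [show num (ψ s) * B.det = Jd R₀ (fderiv ℂ ι' (ψ s)) * B.det from rfl, k3]
  ring

end loc

/-- **W2-B**: restriction of pluricanonical sections of `F` to a fibre `G` of a submersion `W`. -/
theorem restrict_kod {n c d N j : ℕ} {X F G : Type} [TopologicalSpace X] [ChartedSpace (Cm n) X]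
    [TopologicalSpace F] [ChartedSpace (Cm (c + d)) F] [IsManifold 𝓘(ℂ, Cm (c + d)) ω F]
    [TopologicalSpace G] [ChartedSpace (Cm d) G] [IsManifold 𝓘(ℂ, Cm d) ω G] {i : F → X}
    {Δ : Set X → ℝ} {ι : G → F} {W : F → Cm c}
    (hι : ContMDiff 𝓘(ℂ, Cm d) 𝓘(ℂ, Cm (c + d)) ω ι)
    (hιi : ∀ s, Function.Injective (mfderiv 𝓘(ℂ, Cm d) 𝓘(ℂ, Cm (c + d)) ι s))
    (hW : ∀ s, ContMDiffAt 𝓘(ℂ, Cm (c + d)) 𝓘(ℂ, Cm c) ω W (ι s))
    (hWc : ∀ s s', W (ι s) = W (ι s'))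
    (hWs : ∀ s, Function.Surjective (mfderiv 𝓘(ℂ, Cm (c + d)) 𝓘(ℂ, Cm c) W (ι s)))
    {m : ℕ} {k : Set X → ℕ} {σ : ℕ → F → ℂ} (hm : 0 < m) (hk : ∀ D, (k D : ℝ) = m * Δ D)
    (hσ : ∀ b, J.IsSection (Cm (c + d)) (fun (D : Set X) t g => ∃ e, J.IsLocalEq (Cm n) D e (i t) ∧
      ∀ᶠ s in 𝓝 t, g s = e (i s)) m k (σ b))
    (s₀ : G) (h1 : ∀ D, k D ≠ 0 → ∃ g : F → ℂ, (∃ e, J.IsLocalEq (Cm n) D e (i (ι s₀)) ∧
      ∀ᶠ s in 𝓝 (ι s₀), g s = e (i s)) ∧ g (ι s₀) ≠ 0)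
    (h2 : σ 0 (ι s₀) ≠ 0)
    (h3 : Function.Surjective fun (ξ : Cm (c + d)) (b : Fin N) =>
      J.dif (Cm (c + d)) (fun w => σ (b + 1) w / σ 0 w) (ι s₀) ξ)
    (hj : j ≤ N - c) : ((j : ℕ∞) : WithBot ℕ∞) ≤ TZ.S.kodR (Cm n) (Cm d) (fun s => i (ι s)) Δ := by
  have hPT : ∀ s ξ, mfderiv 𝓘(ℂ, Cm (c + d)) 𝓘(ℂ, Cm c) W (ι s)
      (mfderiv 𝓘(ℂ, Cm d) 𝓘(ℂ, Cm (c + d)) ι s ξ) = 0 := by
    intro s ξ
    have g1 := mfderiv_comp_apply s (g := W) (f := ι)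
      ((hW s).mdifferentiableAt (by simp)) ((hι s).mdifferentiableAt (by simp)) ξ
    have g2 : W ∘ ι = fun _ => W (ι s) := funext fun s' => hWc s' s
    rw [g2, mfderiv_const] at g1
    exact g1.symm
  have HJ : ∀ s, ∃ J : ℂ, J ≠ 0 ∧ ∀ R : Cm c →L[ℂ] Cm (c + d),
      Jd R (mfderiv 𝓘(ℂ, Cm d) 𝓘(ℂ, Cm (c + d)) ι s) =
        J * ContinuousLinearMap.det
          ((mfderiv 𝓘(ℂ, Cm (c + d)) 𝓘(ℂ, Cm c) W (ι s) : Cm (c + d) →L[ℂ] Cm c).comp R) :=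
    fun s => exists_jac (hWs s) (hιi s) (hPT s)
  choose Jac hJ0 hJ using HJ
  set τ : ℕ → G → ℂ := fun b s => σ b (ι s) * Jac s ^ m with hτ
  -- the sections
  have hsec : ∀ b, J.IsSection (Cm d) (fun (D : Set X) t g => ∃ e,
      J.IsLocalEq (Cm n) D e (i (ι t)) ∧ ∀ᶠ s in 𝓝 t, g s = e (i (ι s))) m k (τ b) := by
    intro b s₁
    obtain ⟨T, g, a, g1, g2, g3, g4⟩ := hσ b (ι s₁)
    obtain ⟨u, hu, hue⟩ := exists_unit hι hW hWs hJ s₁
    have hιc : Tendsto ι (𝓝 s₁) (𝓝 (ι s₁)) := hι.continuous.continuousAt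
    refine ⟨T, fun D s => g D (ι s), fun s => a (ι s) * u s ^ m, g1, fun D hD => ?_, ?_, ?_⟩
    · obtain ⟨e, he, hge⟩ := g2 D hD
      exact ⟨e, he, hιc.eventually hge⟩
    · have h4 : ContMDiffAt 𝓘(ℂ, Cm d) 𝓘(ℂ, ℂ) ω (fun s => a (ι s)) s₁ :=
        ContMDiffAt.comp (g := a) (f := ι) s₁ g3 (hι s₁)
      exact h4.mul (hu.pow m)
    · filter_upwards [hιc.eventually g4, hue] with s h4 h5 h6
      have h7 := h4 h6
      show σ b (ι s) * Jac s ^ m * ∏ D ∈ T, g D (ι s) ^ k D = _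
      have h8 : σ b (ι s) * Jac s ^ m * ∏ D ∈ T, g D (ι s) ^ k D =
          (σ b (ι s) * ∏ D ∈ T, g D (ι s) ^ k D) * Jac s ^ m := by ring
      rw [h8, h7, mul_assoc, ← mul_pow, h5, mul_pow]
      ring
  -- the ratios
  have hrat : ∀ b, (fun s => τ b s / τ 0 s) = fun s => σ b (ι s) / σ 0 (ι s) := by
    intro b
    funext s
    exact mul_div_mul_right _ _ (pow_ne_zero m (hJ0 s))
  set ρ : Fin N → F → ℂ := fun b w => σ (b + 1) w / σ 0 w with hρ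
  have hρd : ∀ b, MDifferentiableAt 𝓘(ℂ, Cm (c + d)) 𝓘(ℂ, ℂ) (ρ b) (ι s₀) := by
    intro b
    by_contra hcon
    obtain ⟨ξ, hξ⟩ := h3 (fun _ => 1)
    have h4 := congrFun hξ b
    have h5 : J.dif (Cm (c + d)) (ρ b) (ι s₀) = 0 := mfderiv_zero_of_not_mdifferentiableAt hcon
    have h6 : J.dif (Cm (c + d)) (ρ b) (ι s₀) ξ = 1 := h4
    rw [h5] at h6
    exact zero_ne_one h6
  set T₀ : Cm d →L[ℂ] Cm (c + d) := mfderiv 𝓘(ℂ, Cm d) 𝓘(ℂ, Cm (c + d)) ι s₀ with hT₀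
  have hdif : ∀ b ξ, J.dif (Cm d) (fun s => ρ b (ι s)) s₀ ξ =
      J.dif (Cm (c + d)) (ρ b) (ι s₀) (T₀ ξ) := fun b ξ =>
    mfderiv_comp_apply s₀ (g := ρ b) (f := ι) (hρd b) ((hι s₀).mdifferentiableAt (by simp)) ξ
  let Λ : Cm (c + d) →ₗ[ℂ] (Fin N → ℂ) :=
    LinearMap.pi fun b => (J.dif (Cm (c + d)) (ρ b) (ι s₀) : Cm (c + d) →ₗ[ℂ] ℂ)
  have hΛ : Function.Surjective Λ := h3
  have hrk := rank_comp (c := c) (d := d) (T := (T₀ : Cm d →ₗ[ℂ] Cm (c + d))) hΛ (hιi s₀)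
  obtain ⟨e, he⟩ := exists_sel (Λ.comp (T₀ : Cm d →ₗ[ℂ] Cm (c + d))) (hj.trans hrk)
  -- the new sections
  let τ' : ℕ → G → ℂ := fun b => if h : 0 < b ∧ b - 1 < j then τ (e ⟨b - 1, h.2⟩ + 1) else τ 0
  have hτ'0 : τ' 0 = τ 0 := dif_neg (by simp)
  have hτ's : ∀ b : Fin j, τ' (b + 1) = τ (e b + 1) := by
    intro b
    have hb : 0 < (b : ℕ) + 1 ∧ (b : ℕ) + 1 - 1 < j := ⟨Nat.succ_pos _, by simp⟩
    show (if h : 0 < (b : ℕ) + 1 ∧ (b : ℕ) + 1 - 1 < j then τ (e ⟨(b : ℕ) + 1 - 1, h.2⟩ + 1)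
      else τ 0) = _
    rw [dif_pos hb]
    rfl
  unfold TZ.S.kodR J.kod
  refine le_iSup₂_of_le j ⟨m, k, τ', s₀, hm, hk, fun b => ?_, fun D hD => ?_, ?_, ?_⟩ le_rfl
  · by_cases h : 0 < b ∧ b - 1 < j
    · have : τ' b = τ (e ⟨b - 1, h.2⟩ + 1) := dif_pos h
      rw [this]
      exact hsec _
    · have : τ' b = τ 0 := dif_neg h
      rw [this]
      exact hsec _
  · obtain ⟨g, ⟨e', he', hge⟩, hg0⟩ := h1 D hD
    have hιc : Tendsto ι (𝓝 s₀) (𝓝 (ι s₀)) := hι.continuous.continuousAt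
    exact ⟨fun s => g (ι s), ⟨e', he', hιc.eventually hge⟩, hg0⟩
  · rw [hτ'0]
    exact mul_ne_zero h2 (pow_ne_zero m (hJ0 s₀))
  · have h4 : (fun (ξ : Cm d) (b : Fin j) => J.dif (Cm d) (fun w => τ' (b + 1) w / τ' 0 w) s₀ ξ) =
        fun (ξ : Cm d) (b : Fin j) => (Λ.comp (T₀ : Cm d →ₗ[ℂ] Cm (c + d))) ξ (e b) := by
      funext ξ b
      rw [hτ'0, hτ's b, hrat (e b + 1)]
      exact hdif (e b) ξ
    rw [h4]
    exact he

end Vale.Agent.P281.H737.TW
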