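import Vale.Agent.P281.H737.TW.Vec
import Vale.Agent.P281.H713.TZ.Bd
import Vale.Agent.P281.H511.Gen.Hyp

/-! P281, project T-W, block W1-S (helper737): the local estimate for the minors of `h` and of
`h ∘ g` near a general point of a prime divisor of `X` dominating a prime divisor of `Z`. -/

open Set Filter Metric Vale.Agent.P281 Vale.Agent.P281.H713
open Vale.Agent.P281.H64 (Cm)
open Vale.Agent.P281.H713.TZ (mnr dA fderiv_dA mnr_comp)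
open Vale.Agent.P281.H511.Gen (dif_ne_iff_chart)
open scoped Topology ContDiff Manifold

set_option linter.all false

noncomputable section

namespace Vale.Agent.P281.H737.TW

variable {n p q : ℕ} {X Z Y : Type} [TopologicalSpace X] [ChartedSpace (Cm n) X]
  [IsManifold 𝓘(ℂ, Cm n) ω X] [TopologicalSpace Z] [ChartedSpace (Cm p) Z]
  [IsManifold 𝓘(ℂ, Cm p) ω Z] [TopologicalSpace Y] [ChartedSpace (Cm q) Y]
  [IsManifold 𝓘(ℂ, Cm q) ω Y] {g : X → Z} {h : Z → Y}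

/-- **W1-S**, the local estimate. -/
theorem loc_bd (hg : ∀ x, HolM (Cm n) (Cm p) g x) (hh : ∀ z, HolM (Cm p) (Cm q) h z)
    {x₂ : X} {z₀ : Z} (hz : g x₂ ∈ (chartAt (Cm p) z₀).source) {e w : X → ℂ} {d : Z → ℂ} {k : ℕ}
    (hk : 0 < k) (he : HolV (Cm n) e x₂) (he0 : e x₂ = 0) (hde : J.dif (Cm n) e x₂ ≠ 0)
    (hd : HolV (Cm p) d (g x₂)) (hdd : J.dif (Cm p) d (g x₂) ≠ 0) (hw : HolV (Cm n) w x₂)
    (hw0 : w x₂ ≠ 0) (hfac : ∀ᶠ x in 𝓝 x₂, d (g x) = e x ^ k * w x)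
    (hsub : ∀ η : Cm p, J.dif (Cm p) d (g x₂) η = 0 → ∃ ξ : Cm n, J.dif (Cm n) e x₂ ξ = 0 ∧
      mfderiv 𝓘(ℂ, Cm n) 𝓘(ℂ, Cm p) g x₂ ξ = η) {N : Set X} (hN : N ∈ 𝓝 x₂) :
    ∃ C : ℝ, ∀ᶠ z in 𝓝 (g x₂), d z ≠ 0 → ∃ x ∈ N, g x = z ∧ ∀ J : Fin q → Fin p,
      ‖TZ.mnr (TZ.dA (n := p) (p := q) h z₀ z) J‖ * ‖e x‖ ^ (k - 1) ≤
        C * ∑ I : Fin q → Fin n, ‖TZ.mnr (TZ.dA (n := n) (p := q) (fun x => h (g x)) x₂ x) I‖ := by
  classical
  set φ := chartAt (Cm n) x₂ with hφ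
  set ψ := chartAt (Cm p) z₀ with hψ
  set χ := chartAt (Cm q) (h (g x₂)) with hχ
  have hxs : x₂ ∈ φ.source := mem_chart_source (Cm n) x₂
  have hys : h (g x₂) ∈ χ.source := mem_chart_source (Cm q) _
  have hφx : φ.symm (φ x₂) = x₂ := φ.left_inv hxs
  have hφst : Tendsto φ.symm (𝓝 (φ x₂)) (𝓝 x₂) := by
    have := (φ.continuousAt_symm (φ.map_source hxs)).tendsto
    rwa [hφx] at this
  have hgc : Tendsto g (𝓝 x₂) (𝓝 (g x₂)) := (hg x₂).continuousAt.tendsto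
  have hhc : Tendsto h (𝓝 (g x₂)) (𝓝 (h (g x₂))) := (hh (g x₂)).continuousAt.tendsto
  -- holomorphy
  have hψg : ∀ x, g x ∈ ψ.source → HolV (Cm n) (fun x => ψ (g x)) x := fun x hx =>
    HolV.comp (h := (ψ : Z → Cm p)) (HolV.chart hx) (hg x)
  have hχh : ∀ z, h z ∈ χ.source → HolV (Cm p) (fun z => χ (h z)) z := fun z hx =>
    HolV.comp (h := (χ : Y → Cm q)) (HolV.chart hx) (hh z)
  set gh : Cm n → Cm p := (fun x => ψ (g x)) ∘ φ.symm with hgh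
  set hh' : Cm p → Cm q := (fun z => χ (h z)) ∘ ψ.symm with hhh
  set eh : Cm n → ℂ := e ∘ φ.symm with heh
  set wh : Cm n → ℂ := w ∘ φ.symm with hwh
  set dh : Cm p → ℂ := d ∘ ψ.symm with hdh
  have hgcc : gh (φ x₂) = ψ (g x₂) := by
    show ψ (g (φ.symm (φ x₂))) = ψ (g x₂)
    rw [hφx]
  have a1 : AnalyticAt ℂ gh (φ x₂) := ((hψg x₂ hz).rep hxs).analyticAt
  have a2 : AnalyticAt ℂ hh' (gh (φ x₂)) := by
    rw [hgcc]; exact ((hχh (g x₂) hys).rep hz).analyticAt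
  have a3 : AnalyticAt ℂ eh (φ x₂) := (he.rep hxs).analyticAt
  have a4 : eh (φ x₂) = 0 := by
    show e (φ.symm (φ x₂)) = 0
    rw [hφx]; exact he0
  have a5 : fderiv ℂ eh (φ x₂) ≠ 0 := (dif_ne_iff_chart hxs he).1 hde
  have a6 : AnalyticAt ℂ dh (gh (φ x₂)) := by
    rw [hgcc]; exact (hd.rep hz).analyticAt
  have a7 : fderiv ℂ dh (gh (φ x₂)) ≠ 0 := by
    rw [hgcc]; exact (dif_ne_iff_chart hz hd).1 hdd
  have a8 : AnalyticAt ℂ wh (φ x₂) := (hw.rep hxs).analyticAt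
  have a9 : wh (φ x₂) ≠ 0 := by
    show w (φ.symm (φ x₂)) ≠ 0
    rw [hφx]; exact hw0
  have a10 : ∀ᶠ v in 𝓝 (φ x₂), dh (gh v) = eh v ^ k * wh v := by
    filter_upwards [hφst.eventually hfac,
      hφst.eventually (hgc.eventually (ψ.open_source.mem_nhds hz))] with v h1 h2
    show d (ψ.symm (ψ (g (φ.symm v)))) = e (φ.symm v) ^ k * w (φ.symm v)
    rw [ψ.left_inv h2, h1]
  have a11 : ∀ η, fderiv ℂ dh (gh (φ x₂)) η = 0 → ∃ ξ, fderiv ℂ eh (φ x₂) ξ = 0 ∧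
      fderiv ℂ gh (φ x₂) ξ = η := by
    intro η hη
    rw [hgcc] at hη
    have h1 := Ring.mul_inverse_cancel _ (H713.SA.isUnit_dV_chart (E := Cm p) hz)
    set Dψ := dV (Cm p) (chartAt (Cm p) z₀ : Z → Cm p) (g x₂) with hDψ
    have h2 : Dψ (Ring.inverse Dψ η) = η := congrArg (fun T : Cm p →L[ℂ] Cm p => T η) h1
    have h3 : dV (Cm p) d (g x₂) = (fderiv ℂ dh (ψ (g x₂))).comp Dψ := dV_eq_chart hz hd
    have h4 : J.dif (Cm p) d (g x₂) (Ring.inverse Dψ η) = 0 := by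
      show dV (Cm p) d (g x₂) (Ring.inverse Dψ η) = 0
      rw [h3, ContinuousLinearMap.comp_apply, h2]
      exact hη
    obtain ⟨ξ, h5, h6⟩ := hsub _ h4
    refine ⟨dV (Cm n) (chartAt (Cm n) x₂ : X → Cm n) x₂ ξ, ?_, ?_⟩
    · have h7 : dV (Cm n) e x₂ = (fderiv ℂ eh (φ x₂)).comp
          (dV (Cm n) (chartAt (Cm n) x₂ : X → Cm n) x₂) := dV_eq_chart hxs he
      have h8 := congrArg (fun T : Cm n →L[ℂ] ℂ => T ξ) h7
      simp only [ContinuousLinearMap.comp_apply] at h8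
      rw [← h8]
      exact h5
    · have h7 : dV (Cm n) (fun x => ψ (g x)) x₂ = (fderiv ℂ gh (φ x₂)).comp
          (dV (Cm n) (chartAt (Cm n) x₂ : X → Cm n) x₂) := dV_eq_chart hxs (hψg x₂ hz)
      have h8 : dV (Cm n) (fun x => ψ (g x)) x₂ = Dψ.comp (dM (Cm n) (Cm p) g x₂) :=
        dV_comp (h := (ψ : Z → Cm p)) (HolV.chart hz) (hg x₂)
      have h9 := congrArg (fun T : Cm n →L[ℂ] Cm p => T ξ) (h7.symm.trans h8)
      simp only [ContinuousLinearMap.comp_apply] at h9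
      rw [h9, ← h2]
      exact congrArg Dψ h6
  have hN' : φ.target ∩ (φ.symm ⁻¹' N ∩ φ.symm ⁻¹' (g ⁻¹' ψ.source)) ∈ 𝓝 (φ x₂) :=
    inter_mem (φ.open_target.mem_nhds (φ.map_source hxs)) (inter_mem (hφst hN)
      (hφst (hgc (ψ.open_source.mem_nhds hz))))
  obtain ⟨C, hC⟩ := loc_vec (q := q) hk a1 a2 a3 a4 a5 a6 a7 a8 a9 a10 a11 hN'
  rw [hgcc] at hC
  refine ⟨C, ?_⟩
  have hψt : Tendsto ψ (𝓝 (g x₂)) (𝓝 (ψ (g x₂))) := (ψ.continuousAt hz).tendsto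
  filter_upwards [hψt.eventually hC, ψ.open_source.mem_nhds hz,
    hhc.eventually (χ.open_source.mem_nhds hys)] with z hz1 hz2 hz3 hdz
  have hdz' : dh (ψ z) ≠ 0 := by
    show d (ψ.symm (ψ z)) ≠ 0
    rw [ψ.left_inv hz2]; exact hdz
  obtain ⟨v, ⟨hv1, hv2, hv3⟩, hv4, hv5⟩ := hz1 hdz'
  have hgz : g (φ.symm v) = z := ψ.injOn hv3 hz2 hv4
  refine ⟨φ.symm v, hv2, hgz, fun J => ?_⟩
  have hhg : ∀ x, HolM (Cm n) (Cm q) (fun x => h (g x)) x := fun x =>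
    ContMDiffAt.comp x (hh (g x)) (hg x)
  set D := dV (Cm q) (χ : Y → Cm q) (h z) with hD
  have hD0 : D.det ≠ 0 := jac_chart_ne_zero hz3
  have k1 : mnr (fderiv ℂ hh' (ψ z)) J = D.det * mnr (dA (n := p) (p := q) h z₀ z) J := by
    have h1 := fderiv_dA hh (z₀ := z₀) (z := z) (y₀ := h (g x₂)) hz2 hz3
    rw [show fderiv ℂ hh' (ψ z) = _ from h1, mnr_comp]
  have k2 : ∀ I : Fin q → Fin n, mnr (fderiv ℂ (fun x => hh' (gh x)) v) I =
      D.det * mnr (dA (n := n) (p := q) (fun x => h (g x)) x₂ (φ.symm v)) I := by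
    intro I
    have h2 : (fun x => h (g x)) (φ.symm v) ∈ (chartAt (Cm q) (h (g x₂))).source := by
      show h (g (φ.symm v)) ∈ _
      rw [hgz]; exact hz3
    have h1 := fderiv_dA hhg (z₀ := x₂) (z := φ.symm v) (y₀ := h (g x₂)) (φ.map_target hv1) h2
    have h3 : (chartAt (Cm n) x₂) (φ.symm v) = v := φ.right_inv hv1
    rw [h3] at h1
    have h4 : (fun x => hh' (gh x)) =ᶠ[𝓝 v]
        ((fun x => chartAt (Cm q) (h (g x₂)) (h (g x))) ∘ (chartAt (Cm n) x₂).symm) := by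
      have h5 : Tendsto φ.symm (𝓝 v) (𝓝 (φ.symm v)) := (φ.continuousAt_symm hv1).tendsto
      have h6 : Tendsto g (𝓝 (φ.symm v)) (𝓝 (g (φ.symm v))) := (hg _).continuousAt.tendsto
      filter_upwards [h5.eventually (h6.eventually (ψ.open_source.mem_nhds hv3))] with v' h7
      show χ (h (ψ.symm (ψ (g (φ.symm v'))))) = χ (h (g (φ.symm v')))
      rw [ψ.left_inv h7]
    rw [h4.fderiv_eq, show fderiv ℂ _ v = _ from h1, mnr_comp]
    have h5 : dV (Cm q) (chartAt (Cm q) (h (g x₂)) : Y → Cm q) ((fun x => h (g x)) (φ.symm v)) =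
        D := by
      show dV (Cm q) (chartAt (Cm q) (h (g x₂)) : Y → Cm q) (h (g (φ.symm v))) = D
      rw [hgz]
    rw [h5]
  have k3 : ‖eh v‖ = ‖e (φ.symm v)‖ := rfl
  have k4 := hv5 J
  rw [k1, norm_mul, k3] at k4
  have k5 : ∑ I : Fin q → Fin n, ‖mnr (fderiv ℂ (fun x => hh' (gh x)) v) I‖ =
      ‖D.det‖ * ∑ I : Fin q → Fin n,
        ‖mnr (dA (n := n) (p := q) (fun x => h (g x)) x₂ (φ.symm v)) I‖ := by
    rw [Finset.mul_sum]
    refine Finset.sum_congr rfl fun I _ => ?_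
    rw [k2, norm_mul]
  rw [k5] at k4
  have k6 : 0 < ‖D.det‖ := norm_pos_iff.2 hD0
  refine le_of_mul_le_mul_left ?_ k6
  calc ‖D.det‖ * (‖mnr (dA (n := p) (p := q) h z₀ z) J‖ * ‖e (φ.symm v)‖ ^ (k - 1)) =
        ‖D.det‖ * ‖mnr (dA (n := p) (p := q) h z₀ z) J‖ * ‖e (φ.symm v)‖ ^ (k - 1) := by ring
    _ ≤ _ := k4
    _ = _ := by ring

end Vale.Agent.P281.H737.TW
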