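import Vale.Agent.P281.H737.Gen.Crit
import Vale.Agent.P281.H511.Gen.Hyp

/-! P281, project T-W, block W1-B (helper737): a hypersurface which has a point in every fibre of a
submersion near `z` has smooth points near `z` at which the restriction of the submersion is
submersive. -/

open Set Filter Metric Vale.Agent.P281 Vale.Agent.P281.H713
open Vale.Agent.P281.H64 (Cm)
open Vale.Agent.P281.H737.Gen (exists_straight')
open scoped Topology ContDiff Manifold

set_option linter.all false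

noncomputable section

namespace Vale.Agent.P281.H737.TW

/-- a solution of a linear differential equation which vanishes at a point -/
theorem ode_zero {f c : ℂ → ℂ} (hf : AnalyticAt ℂ f 0) (hc : AnalyticAt ℂ c 0) (h0 : f 0 = 0)
    (hd : ∀ᶠ t in 𝓝 (0 : ℂ), deriv f t = f t * c t) : ∀ᶠ t in 𝓝 (0 : ℂ), f t = 0 := by
  by_contra hcon
  obtain ⟨m, g, hg, hg0, hfg⟩ := hf.exists_eventuallyEq_pow_smul_nonzero_iff.2 hcon
  rcases Nat.eq_zero_or_pos m with rfl | hm
  · apply hg0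
    have h1 := hfg.self_of_nhds
    simpa [h0] using h1.symm
  · obtain ⟨k, rfl⟩ : ∃ k, m = k + 1 := ⟨m - 1, by omega⟩
    have h1 : ∀ᶠ t in 𝓝 (0 : ℂ), f =ᶠ[𝓝 t] fun z => z ^ (k + 1) * g z := by
      have h2 := hfg.eventually_nhds
      filter_upwards [h2] with t ht
      filter_upwards [ht] with z hz
      rw [hz, sub_zero, smul_eq_mul]
    have h3 : ∀ᶠ t in 𝓝 (0 : ℂ), t ≠ 0 →
        ((k : ℂ) + 1) * g t + t * deriv g t - t * (g t * c t) = 0 := by
      filter_upwards [h1, hd, hg.eventually_analyticAt] with t ht1 ht2 ht3 ht0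
      have h4 : HasDerivAt (fun z => z ^ (k + 1) * g z)
          (((k + 1 : ℕ) : ℂ) * t ^ k * g t + t ^ (k + 1) * deriv g t) t :=
        (hasDerivAt_pow (k + 1) t).mul ht3.differentiableAt.hasDerivAt
      have h5 : deriv f t = ((k + 1 : ℕ) : ℂ) * t ^ k * g t + t ^ (k + 1) * deriv g t := by
        rw [ht1.deriv_eq]; exact h4.deriv
      rw [ht2, ht1.self_of_nhds] at h5
      have h6 : t ^ k * (((k : ℂ) + 1) * g t + t * deriv g t - t * (g t * c t)) = 0 := by
        push_cast at h5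
        linear_combination -h5
      rcases mul_eq_zero.1 h6 with h7 | h7
      · exact absurd h7 (pow_ne_zero k ht0)
      · exact h7
    have h4 : ContinuousAt (fun t => ((k : ℂ) + 1) * g t + t * deriv g t - t * (g t * c t)) 0 := by
      have h5 := hg.continuousAt
      have h6 := hc.continuousAt
      have h7 : ContinuousAt (deriv g) 0 := hg.deriv.continuousAt
      exact ((continuousAt_const.mul h5).add (continuousAt_id.mul h7)).sub
        (continuousAt_id.mul (h5.mul h6))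
    have h5 : ∀ᶠ t in 𝓝 (0 : ℂ), ((k : ℂ) + 1) * g t + t * deriv g t - t * (g t * c t) ≠ 0 := by
      refine h4.eventually_ne ?_
      have h6 : (k : ℂ) + 1 ≠ 0 := by exact_mod_cast Nat.succ_ne_zero k
      simpa using ⟨h6, hg0⟩
    have h6 : ∀ᶠ t in 𝓝[≠] (0 : ℂ), False := by
      filter_upwards [mem_nhdsWithin_of_mem_nhds h3, mem_nhdsWithin_of_mem_nhds h5,
        self_mem_nhdsWithin] with t h7 h8 h9
      exact h8 (h7 h9)
    exact (NeBot.ne (inferInstance : (𝓝[≠] (0 : ℂ)).NeBot)) (Filter.eventually_false_iff_eq_bot.1 h6)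

/-- division by a function with nonzero differential, in `ℂ^n` -/
theorem factor {n : ℕ} {z : Cm n} {e h : Cm n → ℂ} (he : AnalyticAt ℂ e z) (he0 : e z = 0)
    (hde : fderiv ℂ e z ≠ 0) (hh : AnalyticAt ℂ h z) (h0 : ∀ᶠ x in 𝓝 z, e x = 0 → h x = 0) :
    ∃ w : Cm n → ℂ, AnalyticAt ℂ w z ∧ ∀ᶠ x in 𝓝 z, h x = e x * w x := by
  have h1 : J.HolAt (Cm n) e z := Vale.Agent.P281.H150.Gen.holAt_of_analyticAt he
  have h2 : J.HolAt (Cm n) h z := Vale.Agent.P281.H150.Gen.holAt_of_analyticAt hh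
  have h3 : J.dif (Cm n) e z ≠ 0 := by
    show mfderiv 𝓘(ℂ, Cm n) 𝓘(ℂ, ℂ) e z ≠ 0
    rw [mfderiv_eq_fderiv]; exact hde
  obtain ⟨w, hw, hev⟩ := Vale.Agent.P281.H511.Gen.exists_factor h1 he0 h3 h2 h0
  exact ⟨w, Vale.Agent.P281.H150.Gen.analyticAt_of_holAt hw, hev⟩

/-- **The local theorem.**  If the hypersurface `G = 0` meets every fibre of the submersion `u` near
`z`, and at all its smooth points near `z` the restriction of `u` is not submersive, then `G = 0`
near `z`. -/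
theorem local_zero {n : ℕ} {W : Type} [NormedAddCommGroup W] [NormedSpace ℂ W]
    [FiniteDimensional ℂ W] {u : Cm n → W} {G : Cm n → ℂ} {z : Cm n} (hu : AnalyticAt ℂ u z)
    (hs : Function.Surjective (fderiv ℂ u z)) (hG : AnalyticAt ℂ G z)
    (hsec : ∀ N ∈ 𝓝 z, ∀ᶠ a in 𝓝 (u z), ∃ x ∈ N, u x = a ∧ G x = 0)
    (hred : ∀ᶠ x in 𝓝 z, G x = 0 → x ∈ closure {x | G x = 0 ∧ fderiv ℂ G x ≠ 0})
    (hbad : ∀ᶠ x in 𝓝 z, G x = 0 → fderiv ℂ G x ≠ 0 →
      ∀ ξ, fderiv ℂ u x ξ = 0 → fderiv ℂ G x ξ = 0) : ∀ᶠ x in 𝓝 z, G x = 0 := by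
  obtain ⟨κ, R, hRa, hR0, hRr, hRl⟩ := exists_straight' hu hs
  let K := LinearMap.ker (fderiv ℂ u z : Cm n →ₗ[ℂ] W)
  have hRt : Tendsto R (𝓝 (u z, κ z)) (𝓝 z) := by
    have := hRa.continuousAt.tendsto
    rwa [hR0] at this
  have hgood : ∀ᶠ x in 𝓝 z, R (u x, κ x) = x ∧ AnalyticAt ℂ G x ∧ AnalyticAt ℂ u x ∧
      (G x = 0 → x ∈ closure {x | G x = 0 ∧ fderiv ℂ G x ≠ 0}) ∧
      (G x = 0 → fderiv ℂ G x ≠ 0 → ∀ ξ, fderiv ℂ u x ξ = 0 → fderiv ℂ G x ξ = 0) :=
    hRl.and (hG.eventually_analyticAt.and (hu.eventually_analyticAt.and (hred.and hbad)))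
  have hev : ∀ᶠ q in 𝓝 (u z, κ z), (u (R q) = q.1 ∧ κ (R q) = q.2) ∧ AnalyticAt ℂ R q ∧
      ∀ᶠ x in 𝓝 (R q), R (u x, κ x) = x ∧ AnalyticAt ℂ G x ∧ AnalyticAt ℂ u x ∧
      (G x = 0 → x ∈ closure {x | G x = 0 ∧ fderiv ℂ G x ≠ 0}) ∧
      (G x = 0 → fderiv ℂ G x ≠ 0 → ∀ ξ, fderiv ℂ u x ξ = 0 → fderiv ℂ G x ξ = 0) :=
    hRr.and (hRa.eventually_analyticAt.and (hRt.eventually hgood.eventually_nhds))
  obtain ⟨ρ, hρ, hball⟩ := Metric.eventually_nhds_iff_ball.1 hev
  have hmem : ∀ a ∈ ball (u z) ρ, ∀ k ∈ ball (κ z) ρ, ((a, k) : W × K) ∈ ball (u z, κ z) ρ := by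
    intro a ha k hk
    rw [← ball_prod_same]
    exact ⟨ha, hk⟩
  -- smooth points
  have hA : ∀ a ∈ ball (u z) ρ, ∀ k ∈ ball (κ z) ρ, G (R (a, k)) = 0 →
      fderiv ℂ G (R (a, k)) ≠ 0 → ∀ k' ∈ ball (κ z) ρ, G (R (a, k')) = 0 := by
    intro a ha k hk hGx hdGx k' hk'
    obtain ⟨⟨h1, h2⟩, h3, h4⟩ := hball _ (hmem a ha k hk)
    simp only at h1 h2
    set v : K := k' - k with hv
    set ℓ : ℂ → W × K := fun t => (a, k + t • v) with hℓ
    have hℓ0 : ℓ 0 = (a, k) := by simp [hℓ]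
    have hℓ1 : ℓ 1 = (a, k') := by simp [hℓ, hv]
    have hℓa : ∀ t, AnalyticAt ℂ ℓ t := by
      intro t
      exact analyticAt_const.prod (analyticAt_const.add (analyticAt_id.smul analyticAt_const))
    have hℓd : ∀ t, HasDerivAt ℓ ((0 : W), v) t := by
      intro t
      have h5 : HasDerivAt (fun t : ℂ => k + t • v) v t := by
        have h6 := ((hasDerivAt_id t).smul_const v).const_add k
        simpa using h6
      exact (hasDerivAt_const t a).prodMk h5
    set S : Set ℂ := {t | k + t • v ∈ ball (κ z) ρ} with hS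
    have hcont : Continuous fun t : ℂ => k + t • v := by fun_prop
    have hSo : IsOpen S := isOpen_ball.preimage hcont
    have hSc : Convex ℝ S := by
      intro s hs' t ht α β hα hβ hαβ
      show k + (α • s + β • t) • v ∈ ball (κ z) ρ
      have h5 : k + (α • s + β • t) • v = α • (k + s • v) + β • (k + t • v) := by
        have h6 : k = α • k + β • k := by rw [← add_smul, hαβ, one_smul]
        calc k + (α • s + β • t) • v = (α • k + β • k) + (α • s + β • t) • v := by rw [← h6]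
          _ = _ := by
            rw [add_smul, smul_add, smul_add, smul_assoc, smul_assoc]
            abel
      rw [h5]
      exact convex_ball _ _ hs' ht hα hβ hαβ
    have hS0 : (0 : ℂ) ∈ S := by
      show k + (0 : ℂ) • v ∈ ball (κ z) ρ
      rwa [zero_smul, add_zero]
    have hS1 : (1 : ℂ) ∈ S := by
      show k + (1 : ℂ) • v ∈ ball (κ z) ρ
      rw [one_smul, hv, add_sub_cancel]; exact hk'
    have hSm : ∀ t ∈ S, ℓ t ∈ ball (u z, κ z) ρ := fun t ht => hmem a ha _ ht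
    set f : ℂ → ℂ := fun t => G (R (ℓ t)) with hf
    have hfa : AnalyticOnNhd ℂ f S := by
      intro t ht
      obtain ⟨-, h5, h6⟩ := hball _ (hSm t ht)
      exact AnalyticAt.fun_comp (g := G) (f := fun t => R (ℓ t)) h6.self_of_nhds.2.1
        (AnalyticAt.fun_comp (g := R) (f := ℓ) h5 (hℓa t))
    -- the derivative of `G` in the direction of the fibre
    set w₁ : Cm n → ℂ := fun x => fderiv ℂ G x (fderiv ℂ R (u x, κ x) ((0 : W), v)) with hw₁
    have hx₀ : (u (R (a, k)), κ (R (a, k))) = (a, k) := by rw [h1, h2]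
    have hux : AnalyticAt ℂ u (R (a, k)) := h4.self_of_nhds.2.2.1
    have hGx' : AnalyticAt ℂ G (R (a, k)) := h4.self_of_nhds.2.1
    have hw₁a : AnalyticAt ℂ w₁ (R (a, k)) := by
      have h5 : AnalyticAt ℂ (fun x => ((u x, κ x) : W × K)) (R (a, k)) :=
        hux.prod (κ.analyticAt _)
      have h6 : AnalyticAt ℂ (fderiv ℂ R) (u (R (a, k)), κ (R (a, k))) := by
        rw [hx₀]; exact h3.fderiv
      have h7 : AnalyticAt ℂ (fun x => fderiv ℂ R (u x, κ x)) (R (a, k)) :=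
        AnalyticAt.fun_comp (g := fderiv ℂ R) (f := fun x => ((u x, κ x) : W × K)) h6 h5
      have h8 : ContDiffAt ℂ ω (fun x => fderiv ℂ R (u x, κ x) ((0 : W), v)) (R (a, k)) :=
        h7.contDiffAt.clm_apply contDiffAt_const
      exact (hGx'.fderiv.contDiffAt.clm_apply h8).analyticAt
    have hcx : ContinuousAt (fun x => ((u x, κ x) : W × K)) (R (a, k)) :=
      hux.continuousAt.prodMk κ.continuous.continuousAt
    have hcx' : Tendsto (fun x => ((u x, κ x) : W × K)) (𝓝 (R (a, k))) (𝓝 (a, k)) := by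
      have := hcx.tendsto
      rwa [hx₀] at this
    have hw₁0 : ∀ᶠ x in 𝓝 (R (a, k)), G x = 0 → w₁ x = 0 := by
      have h5 : ∀ᶠ x in 𝓝 (R (a, k)), fderiv ℂ G x ≠ 0 :=
        hGx'.fderiv.continuousAt.eventually_ne hdGx
      filter_upwards [h4, h5, hcx'.eventually (isOpen_ball.mem_nhds (hmem a ha k hk))]
        with x h6 h7 h8 h9
      refine h6.2.2.2.2 h9 h7 _ ?_
      obtain ⟨-, h10, -⟩ := hball _ h8
      have h11 : HasFDerivAt (fun q => u (R q)) ((fderiv ℂ u x).comp (fderiv ℂ R (u x, κ x)))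
          (u x, κ x) := by
        have h12 : HasFDerivAt u (fderiv ℂ u x) (R (u x, κ x)) := by
          rw [h6.1]; exact h6.2.2.1.differentiableAt.hasFDerivAt
        exact h12.comp _ h10.differentiableAt.hasFDerivAt
      have h12 : HasFDerivAt (fun q => u (R q)) (ContinuousLinearMap.fst ℂ W K) (u x, κ x) := by
        refine hasFDerivAt_fst.congr_of_eventuallyEq ?_
        filter_upwards [isOpen_ball.mem_nhds h8] with q hq
        exact (hball q hq).1.1
      have h13 := h11.unique h12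
      exact congrArg (fun T : (W × K) →L[ℂ] W => T ((0 : W), v)) h13
    obtain ⟨c, hc, hev'⟩ := factor hGx' hGx hdGx hw₁a hw₁0
    have hRℓ : Tendsto (fun t => R (ℓ t)) (𝓝 0) (𝓝 (R (a, k))) := by
      have h5 : ContinuousAt (fun t => R (ℓ t)) 0 := by
        refine ContinuousAt.comp (g := R) ?_ (hℓa 0).continuousAt
        rw [hℓ0]; exact h3.continuousAt
      have := h5.tendsto
      rwa [hℓ0] at this
    have hf0 : ∀ᶠ t in 𝓝 (0 : ℂ), f t = 0 := by
      refine ode_zero (c := fun t => c (R (ℓ t))) (hfa 0 hS0) ?_ ?_ ?_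
      · refine AnalyticAt.fun_comp (g := c) (f := fun t => R (ℓ t)) ?_
          (AnalyticAt.fun_comp (g := R) (f := ℓ) ?_ (hℓa 0))
        · rw [hℓ0]; exact hc
        · rw [hℓ0]; exact h3
      · show G (R (ℓ 0)) = 0
        rw [hℓ0]; exact hGx
      · filter_upwards [hSo.mem_nhds hS0, hRℓ.eventually hev'] with t ht h5
        obtain ⟨⟨h6, h7⟩, h8, h9⟩ := hball _ (hSm t ht)
        have h10 : HasDerivAt (fun t => R (ℓ t)) (fderiv ℂ R (ℓ t) ((0 : W), v)) t :=
          h8.differentiableAt.hasFDerivAt.comp_hasDerivAt t (hℓd t)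
        have h11 : HasDerivAt f (fderiv ℂ G (R (ℓ t)) (fderiv ℂ R (ℓ t) ((0 : W), v))) t :=
          h9.self_of_nhds.2.1.differentiableAt.hasFDerivAt.comp_hasDerivAt t h10
        rw [h11.deriv]
        have h12 : w₁ (R (ℓ t)) = fderiv ℂ G (R (ℓ t)) (fderiv ℂ R (ℓ t) ((0 : W), v)) := by
          show fderiv ℂ G (R (ℓ t)) (fderiv ℂ R (u (R (ℓ t)), κ (R (ℓ t))) ((0 : W), v)) = _
          rw [h6, h7]
        rw [← h12]
        exact h5
    have h5 := hfa.eqOn_zero_of_preconnected_of_eventuallyEq_zero hSc.isPreconnected hS0 hf0 hS1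
    have h6 : G (R (ℓ 1)) = 0 := h5
    rwa [hℓ1] at h6
  -- all points
  have hB : ∀ a ∈ ball (u z) ρ, ∀ k ∈ ball (κ z) ρ, G (R (a, k)) = 0 →
      ∀ k' ∈ ball (κ z) ρ, G (R (a, k')) = 0 := by
    intro a ha k hk hGx k' hk'
    by_contra hne
    obtain ⟨⟨h1, h2⟩, h3, h4⟩ := hball _ (hmem a ha k hk)
    obtain ⟨⟨h1', h2'⟩, h3', h4'⟩ := hball _ (hmem a ha k' hk')
    simp only at h1 h2 h1' h2'
    have hx₀ : (u (R (a, k)), κ (R (a, k))) = (a, k) := by rw [h1, h2]
    have hux : AnalyticAt ℂ u (R (a, k)) := h4.self_of_nhds.2.2.1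
    have hcx : ContinuousAt (fun x => ((u x, κ x) : W × K)) (R (a, k)) :=
      hux.continuousAt.prodMk κ.continuous.continuousAt
    have hcx' : Tendsto (fun x => ((u x, κ x) : W × K)) (𝓝 (R (a, k))) (𝓝 (a, k)) := by
      have := hcx.tendsto
      rwa [hx₀] at this
    have h5 : ContinuousAt (fun x => G (R (u x, k'))) (R (a, k)) := by
      have h6 : ContinuousAt (fun x => ((u x, k') : W × K)) (R (a, k)) :=
        hux.continuousAt.prodMk continuousAt_const
      have h7 : ContinuousAt R (u (R (a, k)), k') := by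
        rw [h1]; exact h3'.continuousAt
      have h8 : ContinuousAt (fun x => R (u x, k')) (R (a, k)) :=
        ContinuousAt.comp (g := R) h7 h6
      have h9 : ContinuousAt G (R (u (R (a, k)), k')) := by
        rw [h1]; exact h4'.self_of_nhds.2.1.continuousAt
      exact ContinuousAt.comp (g := G) h9 h8
    have h6 : ∀ᶠ x in 𝓝 (R (a, k)), G (R (u x, k')) ≠ 0 := by
      refine h5.eventually_ne ?_
      rw [h1]; exact hne
    have h7 := h4.self_of_nhds.2.2.2.1 hGx
    obtain ⟨x, ⟨⟨h8, h9⟩, h10⟩, h11, h12⟩ := mem_closure_iff_nhds.1 h7 _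
      (inter_mem (inter_mem h6 (hcx'.eventually (isOpen_ball.mem_nhds (hmem a ha k hk))))
        (h4.mono fun x hx => hx.1))
    have h13 : ((u x, κ x) : W × K) ∈ ball (u z, κ z) ρ := h9
    rw [← ball_prod_same] at h13
    have h14 : R (u x, κ x) = x := h10
    refine h8 (hA (u x) h13.1 (κ x) h13.2 ?_ ?_ k' hk')
    · rw [h14]; exact h11
    · rw [h14]; exact h12
  have hN : {x : Cm n | ((u x, κ x) : W × K) ∈ ball (u z, κ z) ρ ∧ R (u x, κ x) = x} ∈ 𝓝 z := by
    have h1 : ContinuousAt (fun x => ((u x, κ x) : W × K)) z :=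
      hu.continuousAt.prodMk κ.continuous.continuousAt
    exact inter_mem (h1.eventually (ball_mem_nhds _ hρ)) hRl
  have hC : ∀ᶠ a in 𝓝 (u z), ∀ k' ∈ ball (κ z) ρ, G (R (a, k')) = 0 := by
    filter_upwards [hsec _ hN, ball_mem_nhds (u z) hρ] with a h1 h2
    obtain ⟨x, ⟨h3, h4⟩, h5, h6⟩ := h1
    rw [← ball_prod_same] at h3
    have h7 : R (a, κ x) = x := by rw [← h5]; exact h4
    refine hB a h2 (κ x) h3.2 ?_
    rw [h7]; exact h6
  filter_upwards [hu.continuousAt.eventually hC, hRl,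
    κ.continuous.continuousAt.eventually (ball_mem_nhds (κ z) hρ)] with x h1 h2 h3
  have h4 := h1 _ h3
  rwa [h2] at h4

end Vale.Agent.P281.H737.TW
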