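import Vale.Agent.P281.H713.TZ.Iface
import Vale.Agent.P281.H64.Defs

/-! P281, project T-W, block W1-S (helper737): minors of compositions. -/

open Set Filter Metric Vale.Agent.P281 Vale.Agent.P281.H713
open Vale.Agent.P281.H64 (Cm)
open Vale.Agent.P281.H713.TZ (mnr)
open scoped Topology ContDiff Manifold

set_option linter.all false

noncomputable section

namespace Vale.Agent.P281.H737.TW

theorem inj_of_mnr {n p : ℕ} (A : Cm n →L[ℂ] Cm p) {κ : Fin p → Fin n}
    (h : mnr A κ ≠ 0) : Function.Injective κ := by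
  intro a b hab
  by_contra hne
  apply h
  unfold mnr
  refine Matrix.det_zero_of_column_eq (i := a) (j := b) hne fun k => ?_
  simp [hab]

/-- the minors of a composition -/
theorem mnr_comp_eq {m p q : ℕ} (A : Cm m →L[ℂ] Cm q) (S : Cm p →L[ℂ] Cm m) (J : Fin q → Fin p) :
    mnr (A.comp S) J = ∑ I : Fin q → Fin m, (∏ b, S (Pi.single (J b) 1) (I b)) * mnr A I := by
  classical
  have h1 : ∀ b, A (S (Pi.single (J b) 1)) =
      ∑ k, S (Pi.single (J b) 1) k • A (Pi.single k 1) := by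
    intro b
    conv_lhs => rw [← Finset.univ_sum_single (S (Pi.single (J b) 1))]
    rw [map_sum]
    refine Finset.sum_congr rfl fun k _ => ?_
    have h2 : (Pi.single k (S (Pi.single (J b) 1) k) : Cm m) =
        S (Pi.single (J b) 1) k • Pi.single k 1 := by
      rw [← Pi.single_smul, smul_eq_mul, mul_one]
    rw [h2, map_smul]
  have h3 : mnr (A.comp S) J =
      Matrix.det (fun b => ∑ k, S (Pi.single (J b) 1) k • A (Pi.single k 1) :
        Matrix (Fin q) (Fin q) ℂ) := by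
    unfold mnr
    rw [← Matrix.det_transpose]
    congr 1
    ext b a
    rw [Matrix.transpose_apply, Matrix.of_apply, ContinuousLinearMap.comp_apply, h1 b]
  have h5 := (Matrix.detRowAlternating (n := Fin q) (R := ℂ)).toMultilinearMap.map_sum
    (fun (b : Fin q) (k : Fin m) => S (Pi.single (J b) 1) k • (A (Pi.single k 1) : Fin q → ℂ))
  rw [h3]
  refine Eq.trans h5 ?_
  refine Finset.sum_congr rfl fun κ _ => ?_
  have h6 := (Matrix.detRowAlternating (n := Fin q) (R := ℂ)).toMultilinearMap.map_smul_univ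
    (fun b => S (Pi.single (J b) 1) (κ b)) (fun b => (A (Pi.single (κ b) 1) : Fin q → ℂ))
  refine Eq.trans h6 ?_
  rw [smul_eq_mul]
  congr 1
  unfold mnr
  rw [← Matrix.det_transpose]
  rfl

theorem norm_apply_single_le {m p : ℕ} (S : Cm p →L[ℂ] Cm m) (j : Fin p) (i : Fin m) :
    ‖S (Pi.single j 1) i‖ ≤ ‖S‖ := by
  have h1 : ‖(Pi.single j 1 : Cm p)‖ ≤ 1 := by
    rw [pi_norm_le_iff_of_nonneg zero_le_one]
    intro l
    by_cases hl : l = j
    · subst hl; simp
    · simp [Pi.single_eq_of_ne hl]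
  calc ‖S (Pi.single j 1) i‖ ≤ ‖S (Pi.single j 1)‖ := norm_le_pi_norm _ i
    _ ≤ ‖S‖ * ‖(Pi.single j 1 : Cm p)‖ := S.le_opNorm _
    _ ≤ ‖S‖ * 1 := by gcongr
    _ = ‖S‖ := mul_one _

theorem norm_mnr_comp_le {m p q : ℕ} (A : Cm m →L[ℂ] Cm q) (S : Cm p →L[ℂ] Cm m)
    (J : Fin q → Fin p) :
    ‖mnr (A.comp S) J‖ ≤ ‖S‖ ^ q * ∑ I : Fin q → Fin m, ‖mnr A I‖ := by
  rw [mnr_comp_eq, Finset.mul_sum]
  refine (norm_sum_le _ _).trans (Finset.sum_le_sum fun I _ => ?_)
  rw [norm_mul, norm_prod]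
  refine mul_le_mul_of_nonneg_right ?_ (norm_nonneg _)
  calc ∏ b, ‖S (Pi.single (J b) 1) (I b)‖ ≤ ∏ b : Fin q, ‖S‖ :=
        Finset.prod_le_prod (fun b _ => norm_nonneg _) fun b _ => norm_apply_single_le S _ _
    _ = ‖S‖ ^ q := by rw [Finset.prod_const, Finset.card_univ, Fintype.card_fin]

theorem mnr_diag {p q : ℕ} (A : Cm p →L[ℂ] Cm q) (T : Cm p →L[ℂ] Cm p) {δ : Fin p → ℂ}
    (hT : ∀ j, T (Pi.single j 1) = δ j • Pi.single j 1) (J : Fin q → Fin p) :
    mnr (A.comp T) J = (∏ b, δ (J b)) * mnr A J := by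
  unfold mnr
  rw [← Matrix.det_mul_row]
  congr 1
  ext a b
  rw [Matrix.of_apply, Matrix.of_apply, Matrix.of_apply, ContinuousLinearMap.comp_apply, hT, map_smul]
  rfl

/-- at most one column of a nonzero minor is multiplied by the small factor -/
theorem mnr_diag_le {p q k : ℕ} (hk : 0 < k) (A : Cm p →L[ℂ] Cm q) (T : Cm p →L[ℂ] Cm p)
    {σ : Fin p} {t : ℂ} (ht : ‖t‖ ≤ 1)
    (hσ : T (Pi.single σ 1) = ((k : ℂ) * t ^ (k - 1)) • Pi.single σ 1)
    (hT : ∀ j, j ≠ σ → T (Pi.single j 1) = Pi.single j 1) (J : Fin q → Fin p) :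
    ‖mnr A J‖ * ‖t‖ ^ (k - 1) ≤ ‖mnr (A.comp T) J‖ := by
  classical
  by_cases h0 : mnr A J = 0
  · rw [h0, norm_zero, zero_mul]; exact norm_nonneg _
  have hinj := inj_of_mnr A h0
  set δ : Fin p → ℂ := fun j => if j = σ then (k : ℂ) * t ^ (k - 1) else 1 with hδ
  have h1 : ∀ j, T (Pi.single j 1) = δ j • Pi.single j 1 := by
    intro j
    by_cases hj : j = σ
    · subst hj
      simp only [hδ, if_pos]
      exact hσ
    · simp only [hδ, if_neg hj, one_smul]
      exact hT j hj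
  rw [mnr_diag A T h1 J, norm_mul, mul_comm]
  refine mul_le_mul_of_nonneg_right ?_ (norm_nonneg _)
  by_cases hJ : ∃ b, J b = σ
  · obtain ⟨b₀, hb₀⟩ := hJ
    have h2 : ∏ b, δ (J b) = (k : ℂ) * t ^ (k - 1) := by
      rw [Finset.prod_eq_single b₀]
      · simp only [hδ, hb₀, if_pos]
      · intro b _ hb
        have h3 : J b ≠ σ := fun h => hb (hinj (h.trans hb₀.symm))
        simp only [hδ, if_neg h3]
      · intro h; exact absurd (Finset.mem_univ _) h
    rw [h2, norm_mul, norm_pow]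
    have h3 : (1 : ℝ) ≤ ‖(k : ℂ)‖ := by
      rw [Complex.norm_natCast]
      exact_mod_cast hk
    calc ‖t‖ ^ (k - 1) = 1 * ‖t‖ ^ (k - 1) := (one_mul _).symm
      _ ≤ ‖(k : ℂ)‖ * ‖t‖ ^ (k - 1) := by gcongr
  · push Not at hJ
    have h2 : ∏ b, δ (J b) = 1 := Finset.prod_eq_one fun b _ => by simp only [hδ, if_neg (hJ b)]
    rw [h2, norm_one]
    exact pow_le_one₀ (norm_nonneg _) ht

end Vale.Agent.P281.H737.TW
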