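import Vale.Agent.P281.H737.TW.Mnr
import Vale.Agent.P281.H737.Gen.Crit
import Vale.Agent.P281.H511.Gen.Local

/-! P281, project T-W, block W1-S (helper737): the local estimate in vector spaces. -/

open Set Filter Metric Vale.Agent.P281 Vale.Agent.P281.H713
open Vale.Agent.P281.H64 (Cm)
open Vale.Agent.P281.H713.TZ (mnr)
open Vale.Agent.P281.H511.Gen (straighten pr pr_apply norm_pr_le)
open Vale.Agent.P281.H737.Gen (exists_straight')
open scoped Topology ContDiff Manifold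

set_option linter.all false

noncomputable section

namespace Vale.Agent.P281.H737.TW

/-- a holomorphic `k`-th root -/
theorem exists_root {n k : ℕ} (hk : 0 < k) {w : Cm n → ℂ} {c : Cm n} (hw : AnalyticAt ℂ w c)
    (hw0 : w c ≠ 0) : ∃ ρ : Cm n → ℂ, AnalyticAt ℂ ρ c ∧ ρ c ≠ 0 ∧
      ∀ᶠ x in 𝓝 c, ρ x ^ k = w x := by
  obtain ⟨α, hα⟩ := IsAlgClosed.exists_pow_nat_eq (w c) hk
  have hα0 : α ≠ 0 := by
    rintro rfl
    rw [zero_pow hk.ne'] at hα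
    exact hw0 hα.symm
  have hk0 : (k : ℂ) ≠ 0 := by exact_mod_cast hk.ne'
  set r : Cm n → ℂ := fun x => w x / w c with hr
  have hra : AnalyticAt ℂ r c := hw.div analyticAt_const hw0
  have hr1 : r c = 1 := div_self hw0
  have hslit : r c ∈ Complex.slitPlane := by rw [hr1]; exact Complex.one_mem_slitPlane
  refine ⟨fun x => α * Complex.exp (Complex.log (r x) / k), ?_, ?_, ?_⟩
  · exact analyticAt_const.mul ((hra.clog hslit).div analyticAt_const hk0).cexp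
  · exact mul_ne_zero hα0 (Complex.exp_ne_zero _)
  · filter_upwards [hra.continuousAt.eventually (Complex.isOpen_slitPlane.mem_nhds hslit)]
      with x hx
    have hx0 : r x ≠ 0 := Complex.slitPlane_ne_zero hx
    rw [mul_pow, ← Complex.exp_nat_mul, mul_div_cancel₀ _ hk0, Complex.exp_log hx0, hα, hr]
    field_simp

theorem inv_left {p : ℕ} {Ψ : OpenPartialHomeomorph (Cm p) (Cm p)} {v : Cm p}
    (hv : v ∈ Ψ.source) (ha : AnalyticAt ℂ Ψ v) (hs : AnalyticAt ℂ Ψ.symm (Ψ v)) :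
    (fderiv ℂ Ψ.symm (Ψ v)).comp (fderiv ℂ Ψ v) = ContinuousLinearMap.id ℂ (Cm p) := by
  have h1 : HasFDerivAt (fun z => Ψ.symm (Ψ z)) ((fderiv ℂ Ψ.symm (Ψ v)).comp (fderiv ℂ Ψ v)) v :=
    hs.differentiableAt.hasFDerivAt.comp v ha.differentiableAt.hasFDerivAt
  have h2 : HasFDerivAt (fun z => Ψ.symm (Ψ z)) (ContinuousLinearMap.id ℂ (Cm p)) v := by
    refine (hasFDerivAt_id v).congr_of_eventuallyEq ?_
    filter_upwards [Ψ.open_source.mem_nhds hv] with z hz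
    exact Ψ.left_inv hz
  exact h1.unique h2

theorem inv_right {p : ℕ} {Ψ : OpenPartialHomeomorph (Cm p) (Cm p)} {v : Cm p}
    (hv : v ∈ Ψ.source) (ha : AnalyticAt ℂ Ψ v) (hs : AnalyticAt ℂ Ψ.symm (Ψ v)) :
    (fderiv ℂ Ψ v).comp (fderiv ℂ Ψ.symm (Ψ v)) = ContinuousLinearMap.id ℂ (Cm p) := by
  have h0 : HasFDerivAt (Ψ : Cm p → Cm p) (fderiv ℂ Ψ v) (Ψ.symm (Ψ v)) := by
    rw [Ψ.left_inv hv]; exact ha.differentiableAt.hasFDerivAt
  have h1 : HasFDerivAt (fun z => Ψ (Ψ.symm z)) ((fderiv ℂ Ψ v).comp (fderiv ℂ Ψ.symm (Ψ v)))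
      (Ψ v) := h0.comp (Ψ v) hs.differentiableAt.hasFDerivAt
  have h2 : HasFDerivAt (fun z => Ψ (Ψ.symm z)) (ContinuousLinearMap.id ℂ (Cm p)) (Ψ v) := by
    refine (hasFDerivAt_id (Ψ v)).congr_of_eventuallyEq ?_
    filter_upwards [Ψ.open_target.mem_nhds (Ψ.map_source hv)] with z hz
    exact Ψ.right_inv hz
  exact h1.unique h2

/-- the basis vector -/
def sg {p : ℕ} (σ : Fin p) : Cm p := Pi.single σ 1

theorem sg_same {p : ℕ} (σ : Fin p) : sg σ σ = 1 := Pi.single_eq_same σ 1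

theorem sg_ne {p : ℕ} {σ j : Fin p} (h : j ≠ σ) : sg σ j = 0 := Pi.single_eq_of_ne h 1

theorem norm_sg_le {p : ℕ} (σ : Fin p) : ‖sg σ‖ ≤ 1 := by
  rw [pi_norm_le_iff_of_nonneg zero_le_one]
  intro l
  by_cases hl : l = σ
  · subst hl; rw [sg_same, norm_one]
  · rw [sg_ne hl, norm_zero]; exact zero_le_one

theorem pr_same {p : ℕ} (σ : Fin p) (v : Cm p) : pr σ v σ = 0 := by
  rw [pr_apply]; simp

theorem pr_ne {p : ℕ} {σ j : Fin p} (h : j ≠ σ) (v : Cm p) : pr σ v j = v j := by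
  rw [pr_apply]; simp [Function.update_of_ne h]

theorem pr_add_sg {p : ℕ} (σ : Fin p) (v : Cm p) (t : ℂ) :
    (pr σ v + t • sg σ) σ = t ∧ ∀ j, j ≠ σ → (pr σ v + t • sg σ) j = v j := by
  constructor
  · rw [Pi.add_apply, pr_same, Pi.smul_apply, sg_same, zero_add, smul_eq_mul, mul_one]
  · intro j hj
    rw [Pi.add_apply, pr_ne hj, Pi.smul_apply, sg_ne hj, smul_zero, add_zero]

theorem eq_pr_add_sg {p : ℕ} (σ : Fin p) (v : Cm p) : v = pr σ v + v σ • sg σ := by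
  funext j
  by_cases hj : j = σ
  · subst hj; exact ((pr_add_sg j v (v j)).1).symm
  · exact ((pr_add_sg σ v (v σ)).2 j hj).symm

/-- **The local estimate, in vector spaces.** -/
theorem loc_vec {n p q : ℕ} {c : Cm n} {g : Cm n → Cm p} {h : Cm p → Cm q} {e w : Cm n → ℂ}
    {d : Cm p → ℂ} {k : ℕ} (hk : 0 < k) (hg : AnalyticAt ℂ g c) (hh : AnalyticAt ℂ h (g c))
    (he : AnalyticAt ℂ e c) (he0 : e c = 0) (hde : fderiv ℂ e c ≠ 0) (hd : AnalyticAt ℂ d (g c))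
    (hdd : fderiv ℂ d (g c) ≠ 0) (hw : AnalyticAt ℂ w c) (hw0 : w c ≠ 0)
    (hfac : ∀ᶠ x in 𝓝 c, d (g x) = e x ^ k * w x)
    (hsub : ∀ η, fderiv ℂ d (g c) η = 0 → ∃ ξ, fderiv ℂ e c ξ = 0 ∧ fderiv ℂ g c ξ = η)
    {N : Set (Cm n)} (hN : N ∈ 𝓝 c) :
    ∃ C : ℝ, ∀ᶠ v in 𝓝 (g c), d v ≠ 0 → ∃ x ∈ N, g x = v ∧ ∀ J : Fin q → Fin p,
      ‖mnr (fderiv ℂ h v) J‖ * ‖e x‖ ^ (k - 1) ≤
        C * ∑ I : Fin q → Fin n, ‖mnr (fderiv ℂ (fun x => h (g x)) x) I‖ := by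
  classical
  obtain ⟨σ, Ψ, hbΨ, hΨσ, hΨa, hΨs⟩ := straighten hd hdd
  obtain ⟨ρ, hρ, hρ0, hρw⟩ := exists_root hk hw hw0
  have hdb : d (g c) = 0 := by
    have h1 := hfac.self_of_nhds
    rwa [he0, zero_pow hk.ne', zero_mul] at h1
  set F : Cm n → Cm p := fun x => pr σ (Ψ (g x)) + (e x * ρ x) • sg σ with hF
  have hΨg : AnalyticAt ℂ (fun x => Ψ (g x)) c :=
    AnalyticAt.fun_comp (g := Ψ) (f := g) hΨa hg
  have hFa : AnalyticAt ℂ F c := by
    refine AnalyticAt.add ?_ ((he.mul hρ).smul analyticAt_const)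
    exact AnalyticAt.fun_comp (g := pr σ) (f := fun x => Ψ (g x)) ((pr σ).analyticAt _) hΨg
  have hFc : F c = Ψ (g c) := by
    show pr σ (Ψ (g c)) + (e c * ρ c) • sg σ = Ψ (g c)
    conv_rhs => rw [eq_pr_add_sg σ (Ψ (g c))]
    rw [hΨσ, hdb, he0, zero_mul]
  -- `F` is submersive
  have hFd : HasFDerivAt F ((pr σ).comp ((fderiv ℂ Ψ (g c)).comp (fderiv ℂ g c)) +
      (e c • fderiv ℂ ρ c + ρ c • fderiv ℂ e c).smulRight (sg σ)) c := by
    have h1 : HasFDerivAt (fun x => Ψ (g x)) ((fderiv ℂ Ψ (g c)).comp (fderiv ℂ g c)) c :=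
      hΨa.differentiableAt.hasFDerivAt.comp c hg.differentiableAt.hasFDerivAt
    have h2 : HasFDerivAt (fun x => pr σ (Ψ (g x)))
        ((pr σ).comp ((fderiv ℂ Ψ (g c)).comp (fderiv ℂ g c))) c :=
      (pr σ).hasFDerivAt.comp c h1
    have h3 : HasFDerivAt (fun x => e x * ρ x) (e c • fderiv ℂ ρ c + ρ c • fderiv ℂ e c) c :=
      he.differentiableAt.hasFDerivAt.mul hρ.differentiableAt.hasFDerivAt
    exact h2.add (h3.smul_const (sg σ))
  have hFs : Function.Surjective (fderiv ℂ F c) := by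
    rw [hFd.fderiv]
    intro ζ
    obtain ⟨ξ₀, hξ₀⟩ : ∃ ξ, fderiv ℂ e c ξ ≠ 0 := by
      by_contra hcon
      push Not at hcon
      exact hde (ContinuousLinearMap.ext hcon)
    set ξ₁ : Cm n := (ζ σ / (ρ c * fderiv ℂ e c ξ₀)) • ξ₀ with hξ₁
    have h1 : ρ c * fderiv ℂ e c ξ₁ = ζ σ := by
      rw [hξ₁, map_smul, smul_eq_mul]
      field_simp
    set ζ' : Cm p := pr σ (ζ - fderiv ℂ Ψ (g c) (fderiv ℂ g c ξ₁)) with hζ'
    have h2 : fderiv ℂ Ψ (g c) (fderiv ℂ Ψ.symm (Ψ (g c)) ζ') = ζ' :=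
      congrArg (fun T : Cm p →L[ℂ] Cm p => T ζ') (inv_right hbΨ hΨa hΨs)
    have h3 : fderiv ℂ d (g c) (fderiv ℂ Ψ.symm (Ψ (g c)) ζ') = 0 := by
      have h4 : fderiv ℂ d (g c) = (ContinuousLinearMap.proj (R := ℂ)
          (φ := fun _ : Fin p => ℂ) σ).comp (fderiv ℂ Ψ (g c)) := by
        have h5 : HasFDerivAt (fun z => Ψ z σ) ((ContinuousLinearMap.proj (R := ℂ)
          (φ := fun _ : Fin p => ℂ) σ).comp (fderiv ℂ Ψ (g c))) (g c) :=
          (ContinuousLinearMap.proj (R := ℂ) (φ := fun _ : Fin p => ℂ) σ).hasFDerivAt.comp (g c)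
            hΨa.differentiableAt.hasFDerivAt
        have h6 : (fun z => Ψ z σ) = d := funext hΨσ
        rw [h6] at h5
        exact h5.fderiv
      rw [h4, ContinuousLinearMap.comp_apply, h2]
      exact pr_same σ _
    obtain ⟨ξ₂, h4, h5⟩ := hsub _ h3
    refine ⟨ξ₁ + ξ₂, ?_⟩
    have h6 : (e c • fderiv ℂ ρ c + ρ c • fderiv ℂ e c) (ξ₁ + ξ₂) = ζ σ := by
      show e c * fderiv ℂ ρ c (ξ₁ + ξ₂) + ρ c * fderiv ℂ e c (ξ₁ + ξ₂) = ζ σ
      rw [he0, zero_mul, zero_add, map_add, h4, add_zero, h1]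
    rw [ContinuousLinearMap.add_apply, ContinuousLinearMap.smulRight_apply, h6,
      ContinuousLinearMap.comp_apply, ContinuousLinearMap.comp_apply, map_add, map_add, h5, h2]
    conv_rhs => rw [eq_pr_add_sg σ ζ]
    congr 1
    rw [map_add]
    have h7 : pr σ ζ' = ζ' := by
      conv_rhs => rw [eq_pr_add_sg σ ζ']
      rw [hζ', pr_same, zero_smul, add_zero]
    rw [h7, hζ', map_sub]
    abel
  obtain ⟨κ, R, hRa, hR0, hRr, hRl⟩ := exists_straight' hFa hFs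
  set s : Cm p → Cm n := fun y => R (y, κ c) with hs
  have hι : AnalyticAt ℂ (fun y : Cm p => (y, κ c)) (F c) := analyticAt_id.prod analyticAt_const
  have hsa : AnalyticAt ℂ s (F c) := AnalyticAt.fun_comp (g := R) hRa hι
  have hsc : s (F c) = c := hR0
  have hFs' : ∀ᶠ y in 𝓝 (F c), F (s y) = y := by
    filter_upwards [hι.continuousAt.eventually hRr] with y hy
    exact hy.1
  have hst : Tendsto s (𝓝 (F c)) (𝓝 c) := by
    have := hsa.continuousAt.tendsto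
    rwa [hsc] at this
  -- good points
  obtain ⟨C₃, hC₃⟩ : ∃ C₃ : ℝ, ∀ᶠ x in 𝓝 c, ‖(ρ x)⁻¹‖ < C₃ :=
    ⟨‖(ρ c)⁻¹‖ + 1, ((hρ.continuousAt.inv₀ hρ0).norm).eventually_lt_const (lt_add_one _)⟩
  obtain ⟨C₂, hC₂⟩ : ∃ C₂ : ℝ, ∀ᶠ y in 𝓝 (F c), ‖fderiv ℂ s y‖ < C₂ :=
    ⟨‖fderiv ℂ s (F c)‖ + 1, (hsa.fderiv.continuousAt.norm).eventually_lt_const (lt_add_one _)⟩
  obtain ⟨C₁, hC₁⟩ : ∃ C₁ : ℝ, ∀ᶠ v in 𝓝 (g c), ‖fderiv ℂ Ψ v‖ < C₁ :=
    ⟨‖fderiv ℂ Ψ (g c)‖ + 1, (hΨa.fderiv.continuousAt.norm).eventually_lt_const (lt_add_one _)⟩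
  set good : Cm n → Prop := fun x => g x ∈ Ψ.source ∧ d (g x) = e x ^ k * w x ∧ ρ x ^ k = w x ∧
    x ∈ N ∧ ‖(ρ x)⁻¹‖ < C₃ ∧ ρ x ≠ 0 ∧ AnalyticAt ℂ g x ∧ AnalyticAt ℂ h (g x) with hgood
  have hgd : ∀ᶠ x in 𝓝 c, good x := by
    filter_upwards [hg.continuousAt.eventually (Ψ.open_source.mem_nhds hbΨ), hfac, hρw, hN, hC₃,
      hρ.continuousAt.eventually_ne hρ0, hg.eventually_analyticAt,
      hg.continuousAt.eventually hh.eventually_analyticAt] with x h1 h2 h3 h4 h5 h6 h7 h8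
    exact ⟨h1, h2, h3, h4, h5, h6, h7, h8⟩
  have hev : ∀ᶠ y in 𝓝 (F c), (∀ᶠ y' in 𝓝 y, F (s y') = y' ∧ good (s y')) ∧ AnalyticAt ℂ s y ∧
      ‖fderiv ℂ s y‖ < C₂ :=
    (hFs'.and (hst.eventually hgd)).eventually_nhds.and (hsa.eventually_analyticAt.and hC₂)
  -- the key identity
  set P : Cm p → Cm p := fun y => pr σ y + (y σ) ^ k • sg σ with hP
  have hkey : ∀ y, F (s y) = y → good (s y) → Ψ (g (s y)) = P y := by
    intro y h1 h2
    obtain ⟨h3, h4, h5, -⟩ := h2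
    have h6 : ∀ j, F (s y) j = y j := fun j => by rw [h1]
    have h7 := pr_add_sg σ (Ψ (g (s y))) (e (s y) * ρ (s y))
    have h8 := pr_add_sg σ y (y σ ^ k)
    funext j
    by_cases hj : j = σ
    · rw [hj]
      have h9 : e (s y) * ρ (s y) = y σ := h7.1.symm.trans (h6 σ)
      have h10 : P y σ = y σ ^ k := h8.1
      rw [h10, hΨσ, h4, ← h5, ← mul_pow, h9]
    · have h9 : Ψ (g (s y)) j = y j := (h7.2 j hj).symm.trans (h6 j)
      have h10 : P y j = y j := h8.2 j hj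
      rw [h9, h10]
  obtain ⟨δ, hδ, hball⟩ := Metric.eventually_nhds_iff_ball.1 hev
  refine ⟨C₁ ^ q * (C₃ ^ (k - 1) * ((Fintype.card (Fin q → Fin p) : ℝ) * C₂ ^ q)), ?_⟩
  have hΨ1 : ∀ᶠ v in 𝓝 (g c), ‖Ψ v - Ψ (g c)‖ < δ / 2 := by
    have h1 : ContinuousAt (fun v => ‖Ψ v - Ψ (g c)‖) (g c) :=
      (hΨa.continuousAt.sub continuousAt_const).norm
    refine h1.eventually_lt_const ?_
    show ‖Ψ (g c) - Ψ (g c)‖ < δ / 2
    rw [sub_self, norm_zero]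
    positivity
  have hd1 : ∀ᶠ v in 𝓝 (g c), ‖d v‖ < min 1 (δ / 2) ^ k := by
    have h1 : ContinuousAt (fun v => ‖d v‖) (g c) := hd.continuousAt.norm
    refine h1.eventually_lt_const ?_
    show ‖d (g c)‖ < min 1 (δ / 2) ^ k
    rw [hdb, norm_zero]
    positivity
  filter_upwards [hΨ1, hd1, hC₁, Ψ.open_source.mem_nhds hbΨ, hΨa.eventually_analyticAt,
    hΨa.continuousAt.eventually hΨs.eventually_analyticAt] with v hv1 hv2 hv3 hv4 hv5 hv6 hdv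
  obtain ⟨t, ht⟩ := IsAlgClosed.exists_pow_nat_eq (d v) hk
  have htn : ‖t‖ < min 1 (δ / 2) := by
    rw [← ht, norm_pow] at hv2
    exact lt_of_pow_lt_pow_left₀ k (by positivity) hv2
  have ht1 : ‖t‖ ≤ 1 := (htn.trans_le (min_le_left _ _)).le
  have ht2 : ‖t‖ < δ / 2 := htn.trans_le (min_le_right _ _)
  set y : Cm p := pr σ (Ψ v) + t • sg σ with hy
  have hyσ : y σ = t := (pr_add_sg σ (Ψ v) t).1
  have hyj : ∀ j, j ≠ σ → y j = Ψ v j := (pr_add_sg σ (Ψ v) t).2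
  have hymem : y ∈ ball (F c) δ := by
    rw [mem_ball, dist_eq_norm, hFc]
    have h1 : y - Ψ (g c) = pr σ (Ψ v - Ψ (g c)) + t • sg σ := by
      have h2 : Ψ (g c) = pr σ (Ψ (g c)) := by
        conv_lhs => rw [eq_pr_add_sg σ (Ψ (g c)), hΨσ, hdb, zero_smul, add_zero]
      rw [hy, map_sub, ← h2]
      abel
    rw [h1]
    calc ‖pr σ (Ψ v - Ψ (g c)) + t • sg σ‖ ≤ ‖pr σ (Ψ v - Ψ (g c))‖ + ‖t • sg σ‖ :=
          norm_add_le _ _
      _ ≤ ‖Ψ v - Ψ (g c)‖ + ‖t‖ := by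
          refine add_le_add ?_ ?_
          · calc ‖pr σ (Ψ v - Ψ (g c))‖ ≤ ‖(pr σ : Cm p →L[ℂ] Cm p)‖ * ‖Ψ v - Ψ (g c)‖ :=
                  (pr σ).le_opNorm _
              _ ≤ 1 * ‖Ψ v - Ψ (g c)‖ := by
                  gcongr
                  exact norm_pr_le σ
              _ = _ := one_mul _
          · rw [norm_smul]
            calc ‖t‖ * ‖sg σ‖ ≤ ‖t‖ * 1 := by gcongr; exact norm_sg_le σ
              _ = ‖t‖ := mul_one _
      _ < δ / 2 + δ / 2 := add_lt_add hv1 ht2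
      _ = δ := by ring
  obtain ⟨hy1, hy2, hy3⟩ := hball y hymem
  have hFy := hy1.self_of_nhds.1
  have hgy := hy1.self_of_nhds.2
  have hPy : P y = Ψ v := by
    have h8 := pr_add_sg σ y (y σ ^ k)
    funext j
    by_cases hj : j = σ
    · rw [hj]
      have h9 : P y σ = y σ ^ k := h8.1
      rw [h9, hyσ, ht, hΨσ]
    · have h9 : P y j = y j := h8.2 j hj
      rw [h9, hyj j hj]
  have hgv : g (s y) = v := by
    refine Ψ.injOn hgy.1 hv4 ?_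
    rw [hkey y hFy hgy, hPy]
  refine ⟨s y, hgy.2.2.2.1, hgv, fun J => ?_⟩
  -- derivatives
  set T : Cm p →L[ℂ] Cm p := pr σ + (((k : ℂ) * t ^ (k - 1)) • (ContinuousLinearMap.proj (R := ℂ)
    (φ := fun _ : Fin p => ℂ) σ)).smulRight (sg σ) with hT
  have hPd : HasFDerivAt P T y := by
    have h1 : HasFDerivAt (fun y : Cm p => (y σ) ^ k) (((k : ℂ) * t ^ (k - 1)) •
        (ContinuousLinearMap.proj (R := ℂ) (φ := fun _ : Fin p => ℂ) σ)) y := by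
      have h2 : HasDerivAt (fun z : ℂ => z ^ k) ((k : ℂ) * t ^ (k - 1)) (y σ) := by
        rw [hyσ]; exact hasDerivAt_pow k t
      exact h2.comp_hasFDerivAt y (ContinuousLinearMap.proj (R := ℂ)
        (φ := fun _ : Fin p => ℂ) σ).hasFDerivAt
    exact (pr σ).hasFDerivAt.add (h1.smul_const (sg σ))
  have hcomp : (fderiv ℂ g (s y)).comp (fderiv ℂ s y) = (fderiv ℂ Ψ.symm (Ψ v)).comp T := by
    have h1 : HasFDerivAt (fun y => g (s y)) ((fderiv ℂ g (s y)).comp (fderiv ℂ s y)) y :=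
      hgy.2.2.2.2.2.2.1.differentiableAt.hasFDerivAt.comp y hy2.differentiableAt.hasFDerivAt
    have h2 : HasFDerivAt (fun y => Ψ.symm (P y)) ((fderiv ℂ Ψ.symm (Ψ v)).comp T) y := by
      have h3 : HasFDerivAt Ψ.symm (fderiv ℂ Ψ.symm (Ψ v)) (P y) := by
        rw [hPy]; exact hv6.differentiableAt.hasFDerivAt
      exact h3.comp y hPd
    refine h1.unique (h2.congr_of_eventuallyEq ?_)
    filter_upwards [hy1] with y' h3
    rw [← hkey y' h3.1 h3.2, Ψ.left_inv h3.2.1]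
  set A := fderiv ℂ h v with hA
  set AB := fderiv ℂ (fun x => h (g x)) (s y) with hAB
  have hABe : AB = A.comp (fderiv ℂ g (s y)) := by
    have h1 : HasFDerivAt h A (g (s y)) := by
      rw [hgv, hA]
      have h2 := hgy.2.2.2.2.2.2.2
      rw [hgv] at h2
      exact h2.differentiableAt.hasFDerivAt
    exact (h1.comp (s y) hgy.2.2.2.2.2.2.1.differentiableAt.hasFDerivAt).fderiv
  set A' : Cm p →L[ℂ] Cm q := A.comp (fderiv ℂ Ψ.symm (Ψ v)) with hA'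
  have hAA' : A = A'.comp (fderiv ℂ Ψ v) := by
    rw [hA', ContinuousLinearMap.comp_assoc, inv_left hv4 hv5 hv6, ContinuousLinearMap.comp_id]
  have hM : AB.comp (fderiv ℂ s y) = A'.comp T := by
    rw [hABe, ContinuousLinearMap.comp_assoc, hcomp, hA', ContinuousLinearMap.comp_assoc]
  have hTσ : T (Pi.single σ 1) = ((k : ℂ) * t ^ (k - 1)) • Pi.single σ 1 := by
    have h1 : T (sg σ) = ((k : ℂ) * t ^ (k - 1)) • sg σ := by
      rw [hT, ContinuousLinearMap.add_apply, ContinuousLinearMap.smulRight_apply,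
        ContinuousLinearMap.smul_apply, ContinuousLinearMap.proj_apply, sg_same, smul_eq_mul,
        mul_one]
      have h2 : pr σ (sg σ) = 0 := by
        funext j
        by_cases hj : j = σ
        · rw [hj]; exact pr_same σ _
        · rw [pr_ne hj, sg_ne hj]; rfl
      rw [h2, zero_add]
    exact h1
  have hTj : ∀ j, j ≠ σ → T (Pi.single j 1) = Pi.single j 1 := by
    intro j hj
    have h1 : T (sg j) = sg j := by
      have h0 : sg j σ = 0 := sg_ne (Ne.symm hj)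
      rw [hT, ContinuousLinearMap.add_apply, ContinuousLinearMap.smulRight_apply,
        ContinuousLinearMap.smul_apply, ContinuousLinearMap.proj_apply, h0, smul_zero,
        zero_smul, add_zero]
      conv_rhs => rw [eq_pr_add_sg σ (sg j), h0, zero_smul, add_zero]
    exact h1
  set S : ℝ := ∑ I : Fin q → Fin n, ‖mnr AB I‖ with hS
  have hS0 : 0 ≤ S := Finset.sum_nonneg fun I _ => norm_nonneg _
  have hC₁0 : 0 ≤ C₁ := (norm_nonneg _).trans hv3.le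
  have hC₂0 : 0 ≤ C₂ := (norm_nonneg _).trans hy3.le
  have hC₃0 : 0 ≤ C₃ := (norm_nonneg _).trans hgy.2.2.2.2.1.le
  have h1 : ∀ L : Fin q → Fin p, ‖mnr A' L‖ * ‖t‖ ^ (k - 1) ≤ C₂ ^ q * S := by
    intro L
    calc ‖mnr A' L‖ * ‖t‖ ^ (k - 1) ≤ ‖mnr (A'.comp T) L‖ := mnr_diag_le hk A' T ht1 hTσ hTj L
      _ = ‖mnr (AB.comp (fderiv ℂ s y)) L‖ := by rw [hM]
      _ ≤ ‖fderiv ℂ s y‖ ^ q * S := norm_mnr_comp_le _ _ _
      _ ≤ C₂ ^ q * S := by gcongr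
  have h2 : ‖mnr A J‖ ≤ C₁ ^ q * ∑ L : Fin q → Fin p, ‖mnr A' L‖ := by
    calc ‖mnr A J‖ = ‖mnr (A'.comp (fderiv ℂ Ψ v)) J‖ := by rw [← hAA']
      _ ≤ ‖fderiv ℂ Ψ v‖ ^ q * ∑ L : Fin q → Fin p, ‖mnr A' L‖ := norm_mnr_comp_le _ _ _
      _ ≤ C₁ ^ q * ∑ L : Fin q → Fin p, ‖mnr A' L‖ := by
          gcongr
  have h3 : ‖e (s y)‖ ≤ C₃ * ‖t‖ := by
    have h4 : e (s y) * ρ (s y) = t := by
      have h5 := (pr_add_sg σ (Ψ (g (s y))) (e (s y) * ρ (s y))).1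
      have h6 : F (s y) σ = y σ := by rw [hFy]
      exact h5.symm.trans (h6.trans hyσ)
    have h5 : e (s y) = (ρ (s y))⁻¹ * t := by
      rw [← h4, mul_comm (e (s y)), inv_mul_cancel_left₀ hgy.2.2.2.2.2.1]
    rw [h5, norm_mul]
    exact mul_le_mul_of_nonneg_right hgy.2.2.2.2.1.le (norm_nonneg _)
  calc ‖mnr A J‖ * ‖e (s y)‖ ^ (k - 1)
      ≤ (C₁ ^ q * ∑ L : Fin q → Fin p, ‖mnr A' L‖) * (C₃ * ‖t‖) ^ (k - 1) := by
        gcongr
    _ = C₁ ^ q * (C₃ ^ (k - 1) * ∑ L : Fin q → Fin p, ‖mnr A' L‖ * ‖t‖ ^ (k - 1)) := by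
        rw [mul_pow, ← Finset.sum_mul]
        ring
    _ ≤ C₁ ^ q * (C₃ ^ (k - 1) * ∑ L : Fin q → Fin p, C₂ ^ q * S) := by
        exact mul_le_mul_of_nonneg_left (mul_le_mul_of_nonneg_left
          (Finset.sum_le_sum fun L _ => h1 L) (pow_nonneg hC₃0 _)) (pow_nonneg hC₁0 _)
    _ = C₁ ^ q * (C₃ ^ (k - 1) * ((Fintype.card (Fin q → Fin p) : ℝ) * C₂ ^ q)) * S := by
        rw [Finset.sum_const, Finset.card_univ, nsmul_eq_mul]
        ring

end Vale.Agent.P281.H737.TW
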